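import Vale.Agent.P032.H913.Rules

/-!
# P032: points of the module of `K` direction classes, given by integer coordinates
-/

open Set Filter Topology Metric

noncomputable section

namespace Vale.Agent.P032.H913

open Vale.Agent.P032.Six Vale.Agent.P032.H892 Vale.Agent.P032.S5.H767

/-- coordinates of the six unit vectors -/
def hx (j : ℕ) : ℤ × ℤ :=
  match j with
  | 0 => (1, 0)
  | 1 => (0, 1)
  | 2 => (-1, 1)
  | 3 => (-1, 0)
  | 4 => (0, -1)
  | _ => (1, -1)

/-- add `v` to the entry `k` -/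
def addAt : List (ℤ × ℤ) → ℕ → ℤ × ℤ → List (ℤ × ℤ)
  | [], _, _ => []
  | c :: l, 0, v => (c.1 + v.1, c.2 + v.2) :: l
  | c :: l, k + 1, v => c :: addAt l k v

/-- the vector with the given coordinates; class `i` has the basis `dir (a i)`, `dir (a i + 1)` -/
def vl (a : ℕ → ℝ) : List (ℤ × ℤ) → ℕ → ℂ
  | [], _ => 0
  | c :: l, i => ((c.1 : ℂ) + (c.2 : ℂ) * dir 1) * dir (a i) + vl a l (i + 1)

theorem vl_addAt (a : ℕ → ℝ) : ∀ (l : List (ℤ × ℤ)) (k i : ℕ) (v : ℤ × ℤ), k < l.length →
    vl a (addAt l k v) i = vl a l i + ((v.1 : ℂ) + (v.2 : ℂ) * dir 1) * dir (a (i + k))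
  | [], _, _, _, h => absurd h (by simp)
  | c :: l, 0, i, v, _ => by
    simp only [addAt, vl, add_zero]
    push_cast; ring
  | c :: l, k + 1, i, v, h => by
    have h1 := vl_addAt a l k (i + 1) v (by simpa using h)
    simp only [addAt, vl]
    rw [h1]
    have : i + 1 + k = i + (k + 1) := by ring
    rw [this]; ring

theorem dir_mul (x y : ℝ) : dir (x + y) = dir x * dir y := by
  unfold dir
  rw [add_mul, Six.cis_add]

theorem dir_one_sq : dir 1 * dir 1 = dir 1 - 1 := by
  have h : dir 1 = ⟨1 / 2, √3 / 2⟩ := by unfold dir; rw [one_mul, cis_third]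
  rw [h]
  have h3 : √3 * √3 = 3 := Real.mul_self_sqrt (by norm_num)
  apply Complex.ext
  · simp only [Complex.mul_re, Complex.sub_re, Complex.one_re]; nlinarith
  · simp only [Complex.mul_im, Complex.sub_im, Complex.one_im]; ring

theorem dir_hx (x : ℝ) (j : ℕ) (hj : j < 6) :
    dir (x + j) = (((hx j).1 : ℂ) + ((hx j).2 : ℂ) * dir 1) * dir x := by
  have h := dir_one_sq
  interval_cases j
  · simp [hx]
  · simp only [hx, Nat.cast_one, Int.cast_zero, Int.cast_one, zero_add, one_mul]
    rw [dir_mul]; ring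
  · have e : x + (2 : ℕ) = x + 1 + 1 := by push_cast; ring
    rw [e, dir_mul, dir_mul]
    simp only [hx]
    push_cast
    linear_combination dir x * h
  · have e : x + (3 : ℕ) = x + 3 := by push_cast; ring
    rw [e, dir_add_three]
    simp [hx]
  · have e : x + (4 : ℕ) = x + 1 + 3 := by push_cast; ring
    rw [e, dir_add_three, dir_mul]
    simp only [hx]
    push_cast
    ring
  · have e : x + (5 : ℕ) = x + 1 + 1 + 3 := by push_cast; ring
    rw [e, dir_add_three, dir_mul, dir_mul]
    simp only [hx]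
    push_cast
    linear_combination -dir x * h

theorem Tick.vl_step {K : ℕ} {a : ℕ → ℝ} (A : Tick K a) {l : List (ℤ × ℤ)} (hl : l.length = K) {t : ℕ}
    (ht : t < 6 * K) : vl a (addAt l (t % K) (hx (t / K))) 0 = vl a l 0 + dir (a t) := by
  have h1 : t % K < l.length := by rw [hl]; exact Nat.mod_lt _ A.pos
  have hj : t / K < 6 := Nat.div_lt_of_lt_mul (by rwa [mul_comm] at ht)
  rw [vl_addAt a l _ 0 _ h1, zero_add]
  congr 1
  have h2 := A.per_mul (t % K) (t / K)
  have h3 : t % K + t / K * K = t := by rw [mul_comm]; exact Nat.mod_add_div t K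
  rw [h3] at h2
  rw [h2, dir_hx _ _ hj]

end Vale.Agent.P032.H913
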