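import Vale.Agent.P032.H913.Pts
import Vale.Agent.P032.H139.Lrat

/-!
# P032: certificates for systems of rays at a six-coloured point

Atoms are numbers: `prv K p o c` = the colour `c` is present at the point `p` in the exact direction `o`;
`ltv K NP t w c` = the letter `w` (`w = 2 s + io`) at the tick `t` is `c`.  `inp` turns a code into a clause which holds
for every six-coloured point (a trivial clause if the code is not admissible).

* `engine` : a checked refutation of such clauses and of clauses about letters gives a contradiction.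
-/

open Set Filter Topology Metric

set_option linter.unusedSectionVars false

noncomputable section

namespace Vale.Agent.P032.H913

open Vale.Agent.P032.Six Vale.Agent.P032.H892 Vale.Agent.P032.S5.H767
open Vale.Agent.P032.H139.Lrat (Sat lit br br_true br_false Db check check_sound)

/-! ### clauses as masks -/

theorem sat_bit {a : ℕ → Bool} {C l : ℕ} (h : C.testBit l = true) (h2 : lit a l = true) : Sat a C := ⟨l, h, h2⟩

theorem lit_even (a : ℕ → Bool) (v : ℕ) : lit a (2 * v) = a v := by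
  unfold lit
  have h1 : 2 * v % 2 = 0 := by omega
  have h2 : 2 * v / 2 = v := by omega
  rw [h1, h2]; rfl

theorem lit_odd (a : ℕ → Bool) (v : ℕ) : lit a (2 * v + 1) = !(a v) := by
  unfold lit
  have h1 : (2 * v + 1) % 2 = 1 := by omega
  have h2 : (2 * v + 1) / 2 = v := by omega
  rw [h1, h2]; rfl

theorem sat_or_left {a : ℕ → Bool} {C D : ℕ} (h : Sat a C) : Sat a (Nat.lor C D) := by
  obtain ⟨l, h1, h2⟩ := h
  refine ⟨l, ?_, h2⟩
  change (C ||| D).testBit l = true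
  rw [Nat.testBit_or, h1]; rfl

theorem sat_or_right {a : ℕ → Bool} {C D : ℕ} (h : Sat a D) : Sat a (Nat.lor C D) := by
  obtain ⟨l, h1, h2⟩ := h
  refine ⟨l, ?_, h2⟩
  change (C ||| D).testBit l = true
  rw [Nat.testBit_or, h1, Bool.or_true]

/-- the negative literal of `v` -/
def ngm (v : ℕ) : ℕ := Nat.shiftLeft 1 (Nat.add (Nat.mul 2 v) 1)

theorem sat_ngm {a : ℕ → Bool} {v : ℕ} (h : a v = false) : Sat a (ngm v) := by
  refine sat_bit (l := 2 * v + 1) ?_ (by rw [lit_odd, h]; rfl)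
  change (1 <<< (2 * v + 1)).testBit (2 * v + 1) = true
  rw [Nat.testBit_shiftLeft]
  simp

/-- two negative literals -/
def ng2 (v w : ℕ) : ℕ := Nat.lor (ngm v) (ngm w)

theorem sat_ng2 {a : ℕ → Bool} {v w : ℕ} (h : a v = true → a w = false) : Sat a (ng2 v w) := by
  cases h1 : a v
  · exact sat_or_left (sat_ngm h1)
  · exact sat_or_right (sat_ngm (h h1))

/-- positive literals of the block `b` : the bits of `m` -/
def blk (m b : ℕ) : ℕ := Nat.shiftLeft m (Nat.mul 12 b)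

theorem sat_blk {a : ℕ → Bool} {m b c : ℕ} (h : m.testBit (2 * c) = true) (h2 : a (6 * b + c) = true) :
    Sat a (blk m b) := by
  refine sat_bit (l := 2 * (6 * b + c)) ?_ (by rw [lit_even, h2])
  change (m <<< (12 * b)).testBit (2 * (6 * b + c)) = true
  rw [Nat.testBit_shiftLeft]
  have h1 : 12 * b ≤ 2 * (6 * b + c) := by omega
  have h3 : 2 * (6 * b + c) - 12 * b = 2 * c := by omega
  rw [h3, h]
  simp [h1]

theorem sat_three (a : ℕ → Bool) : Sat a 3 := by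
  cases h : a 0
  · exact sat_bit (l := 2 * 0 + 1) (by decide) (by rw [lit_odd, h]; rfl)
  · exact sat_bit (l := 2 * 0) (by decide) (by rw [lit_even, h])

/-! ### atoms -/

/-- the atom `colour c at the point p in the direction o` -/
def prv (K p o c : ℕ) : ℕ := Nat.add (Nat.mul 6 (Nat.add (Nat.mul p (Nat.mul 12 K)) o)) c

/-- the atom `the letter w at the tick t is c` -/
def ltv (K NP t w c : ℕ) : ℕ :=
  Nat.add (Nat.mul 6 (Nat.add (Nat.mul NP (Nat.mul 12 K)) (Nat.add (Nat.mul 4 t) w))) c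

/-- neighbours of points -/
def nb (K TB p t : ℕ) : ℕ := Nat.land (Nat.shiftRight TB (Nat.mul 7 (Nat.add (Nat.mul p (Nat.mul 6 K)) t))) 127

/-- fields of codes -/
def fd (n i : ℕ) : ℕ := Nat.land (Nat.shiftRight n i) 127

/-- domains of letters -/
def dm (DT b : ℕ) : ℕ := Nat.land (Nat.shiftRight DT (Nat.mul 12 b)) 4095

variable {U : Fin 6 → Set ℂ} {T : ℂ → Set (Fin 6)} {z : ℂ}

/-- the colours -/
def cl (σ : Fin 6 → Fin 6) (c : ℕ) : Fin 6 := σ ⟨c % 6, Nat.mod_lt _ (by norm_num)⟩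

/-- the meaning of the atoms -/
def av (K NP : ℕ) (P : ℕ → ℂ) (a : ℕ → ℝ) (σ : Fin 6 → Fin 6) (U : Fin 6 → Set ℂ) (T : ℂ → Set (Fin 6)) (z : ℂ)
    (n : ℕ) : Prop :=
  if n / 6 < NP * (12 * K) then Dx T (P (n / 6 / (12 * K))) (ry a (n / 6 % (12 * K))) (cl σ (n % 6))
  else lt U T z (Nat.beq ((n / 6 - NP * (12 * K)) / 2 % 2) 1) (Nat.beq ((n / 6 - NP * (12 * K)) % 2) 1)
    (a ((n / 6 - NP * (12 * K)) / 4)) = cl σ (n % 6)

open Classical in
/-- the assignment -/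
def ab (K NP : ℕ) (P : ℕ → ℂ) (a : ℕ → ℝ) (σ : Fin 6 → Fin 6) (U : Fin 6 → Set ℂ) (T : ℂ → Set (Fin 6)) (z : ℂ)
    (n : ℕ) : Bool := decide (av K NP P a σ U T z n)

theorem ab_true {K NP : ℕ} {P : ℕ → ℂ} {a : ℕ → ℝ} {σ : Fin 6 → Fin 6} {n : ℕ} :
    ab K NP P a σ U T z n = true ↔ av K NP P a σ U T z n := by
  classical
  unfold ab
  exact decide_eq_true_iff

theorem ab_false {K NP : ℕ} {P : ℕ → ℂ} {a : ℕ → ℝ} {σ : Fin 6 → Fin 6} {n : ℕ}
    (h : ¬ av K NP P a σ U T z n) : ab K NP P a σ U T z n = false := by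
  cases h1 : ab K NP P a σ U T z n
  · rfl
  · exact absurd (ab_true.1 h1) h

/-- the letter `w = 2 s + io` -/
def ltw (U : Fin 6 → Set ℂ) (T : ℂ → Set (Fin 6)) (z : ℂ) (w : ℕ) (u : ℝ) : Fin 6 :=
  lt U T z (Nat.beq (w / 2 % 2) 1) (Nat.beq (w % 2) 1) u

/-- the hypotheses of the engine -/
structure Sy (K NP TB : ℕ) (P : ℕ → ℂ) (a : ℕ → ℝ) (σ : Fin 6 → Fin 6) (U : Fin 6 → Set ℂ)
    (T : ℂ → Set (Fin 6)) (z : ℂ) (DT : ℕ) : Prop where
  tick : Tick K a
  cen : C6 U T z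
  inj : Function.Injective σ
  zero : P 0 = z
  edge : ∀ p t, p < NP → t < 6 * K → nb K TB p t < NP → P p = P (nb K TB p t) + dir (a t)
  dom : ∀ t w, t < 6 * K → w < 4 → ∃ c < 6, (dm DT (4 * t + w)).testBit (2 * c) = true ∧
    ltw U T z w (a t) = cl σ c

namespace Sy

variable {K NP TB : ℕ} {P : ℕ → ℂ} {a : ℕ → ℝ} {σ : Fin 6 → Fin 6} {DT : ℕ} (S : Sy K NP TB P a σ U T z DT)
include S

theorem cl_surj (c' : Fin 6) : ∃ c < 6, cl σ c = c' := by
  obtain ⟨d, hd⟩ := (Finite.injective_iff_surjective.1 S.inj) c'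
  refine ⟨d.val, d.isLt, ?_⟩
  unfold cl
  rw [← hd]
  congr 1
  apply Fin.ext
  exact Nat.mod_eq_of_lt d.isLt

theorem cl_inj {c d : ℕ} (hc : c < 6) (hd : d < 6) (h : cl σ c = cl σ d) : c = d := by
  have := congrArg Fin.val (S.inj h)
  simp only [Nat.mod_eq_of_lt hc, Nat.mod_eq_of_lt hd] at this
  exact this

omit S in
theorem prv_eq (p o c : ℕ) : prv K p o c = 6 * (p * (12 * K) + o) + c := rfl

omit S in
theorem ltv_eq (t w c : ℕ) : ltv K NP t w c = 6 * (NP * (12 * K) + (4 * t + w)) + c := rfl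

theorem av_prv {p o c : ℕ} (hp : p < NP) (ho : o < 12 * K) (hc : c < 6) :
    av K NP P a σ U T z (prv K p o c) ↔ Dx T (P p) (ry a o) (cl σ c) := by
  have h1 : prv K p o c / 6 = p * (12 * K) + o := by rw [prv_eq]; omega
  have h2 : prv K p o c % 6 = c := by rw [prv_eq]; omega
  have hK : 0 < 12 * K := by omega
  have h3 : p * (12 * K) + o < NP * (12 * K) := by
    calc p * (12 * K) + o < p * (12 * K) + 12 * K := by omega
      _ = (p + 1) * (12 * K) := by ring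
      _ ≤ NP * (12 * K) := Nat.mul_le_mul_right _ hp
  have h4 : (p * (12 * K) + o) / (12 * K) = p := by
    rw [add_comm, Nat.add_mul_div_right _ _ hK, Nat.div_eq_of_lt ho, zero_add]
  have h5 : (p * (12 * K) + o) % (12 * K) = o := by
    rw [add_comm, Nat.add_mul_mod_self_right, Nat.mod_eq_of_lt ho]
  unfold av
  rw [h1, h2, if_pos h3, h4, h5]

theorem av_ltv {t w c : ℕ} (hw : w < 4) (hc : c < 6) :
    av K NP P a σ U T z (ltv K NP t w c) ↔ ltw U T z w (a t) = cl σ c := by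
  have h1 : ltv K NP t w c / 6 = NP * (12 * K) + (4 * t + w) := by rw [ltv_eq]; omega
  have h2 : ltv K NP t w c % 6 = c := by rw [ltv_eq]; omega
  have h3 : ¬ NP * (12 * K) + (4 * t + w) < NP * (12 * K) := by omega
  have h4 : NP * (12 * K) + (4 * t + w) - NP * (12 * K) = 4 * t + w := by omega
  have h5 : (4 * t + w) / 2 % 2 = w / 2 % 2 := by omega
  have h6 : (4 * t + w) % 2 = w % 2 := by omega
  have h7 : (4 * t + w) / 4 = t := by omega
  unfold av
  rw [h1, h2, if_neg h3, h4, h5, h6, h7]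
  rfl

theorem ab_prv {p o c : ℕ} (hp : p < NP) (ho : o < 12 * K) (hc : c < 6)
    (h : Dx T (P p) (ry a o) (cl σ c)) : ab K NP P a σ U T z (prv K p o c) = true :=
  ab_true.2 ((S.av_prv hp ho hc).2 h)

theorem ab_prv_false {p o c : ℕ} (hp : p < NP) (ho : o < 12 * K) (hc : c < 6)
    (h : ¬ Dx T (P p) (ry a o) (cl σ c)) : ab K NP P a σ U T z (prv K p o c) = false :=
  ab_false fun h1 => h ((S.av_prv hp ho hc).1 h1)

theorem of_ab_ltv {t w c : ℕ} (hw : w < 4) (hc : c < 6) (h : ab K NP P a σ U T z (ltv K NP t w c) = true) :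
    ltw U T z w (a t) = cl σ c := (S.av_ltv hw hc).1 (ab_true.1 h)

theorem ab_ltv {t w c : ℕ} (hw : w < 4) (hc : c < 6) (h : ltw U T z w (a t) = cl σ c) :
    ab K NP P a σ U T z (ltv K NP t w c) = true := ab_true.2 ((S.av_ltv hw hc).2 h)

theorem ab_ltv_false {t w c : ℕ} (hw : w < 4) (hc : c < 6) (h : ltw U T z w (a t) ≠ cl σ c) :
    ab K NP P a σ U T z (ltv K NP t w c) = false :=
  ab_false fun h1 => h ((S.av_ltv hw hc).1 h1)

/-- a letter and a ray -/
theorem kill {t w c p o : ℕ} (hw : w < 4) (hc : c < 6) (hp : p < NP) (ho : o < 12 * K)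
    (h : ¬ Dx T (P p) (ry a o) (ltw U T z w (a t))) :
    Sat (ab K NP P a σ U T z) (ng2 (ltv K NP t w c) (prv K p o c)) := by
  refine sat_ng2 fun h1 => ?_
  have h2 := S.of_ab_ltv hw hc h1
  rw [h2] at h
  exact S.ab_prv_false hp ho hc h

end Sy

/-! ### rules -/

/-- some colour is present in every direction -/
def exC (K NP p o : ℕ) : ℕ :=
  br (Nat.blt p NP && Nat.blt o (Nat.mul 12 K)) (blk 1365 (Nat.add (Nat.mul p (Nat.mul 12 K)) o)) 3

/-- R1 -/
def crC (K NP TB p o t o2 c : ℕ) : ℕ :=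
  br (Nat.blt p NP && Nat.blt (nb K TB p t) NP && Nat.blt o (Nat.mul 12 K) && Nat.blt o2 (Nat.mul 12 K) &&
      Nat.blt t (Nat.mul 6 K) && Nat.blt c 6 &&
      (xor (outb K o t) (outb K o2 (Nat.add t (Nat.mul 3 K))) || Nat.beq o o2))
    (Nat.lor (blk (Nat.xor 1365 (Nat.shiftLeft 1 (Nat.mul 2 c))) (Nat.add (Nat.mul p (Nat.mul 12 K)) o))
      (ngm (prv K (nb K TB p t) o2 c))) 3

/-- R2 -/
def arC (K NP TB t w c t1 o : ℕ) : ℕ :=
  br (Nat.blt t (Nat.mul 6 K) && Nat.blt w 4 && Nat.blt c 6 && Nat.blt t1 (Nat.mul 6 K) &&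
      Nat.blt (nb K TB (Nat.succ t) t1) NP && Nat.blt o (Nat.mul 12 K) && Nat.blt (Nat.succ t) NP &&
      Nat.beq (nb K TB (Nat.succ t) t) 0 && !(Nat.beq (dd K (Nat.mul 2 t) t1) 0) &&
      xor (arco K (Nat.beq (w / 2 % 2) 1) t t1) (outb K o (Nat.add t1 (Nat.mul 3 K))))
    (ng2 (ltv K NP t w c) (prv K (nb K TB (Nat.succ t) t1) o c)) 3

/-- tangent ray at the centre -/
def taC (K NP t w c o : ℕ) : ℕ :=
  br (Nat.blt t (Nat.mul 6 K) && Nat.blt w 4 && Nat.blt c 6 && Nat.blt o (Nat.mul 12 K) && Nat.blt 0 NP &&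
      Nat.beq (dd K o t) (bif Nat.beq (w / 2 % 2) 1 then 0 else Nat.mul 6 K))
    (ng2 (ltv K NP t w c) (prv K 0 o c)) 3

/-- half planes at the centre -/
def haC (K NP t w c o : ℕ) : ℕ :=
  br (Nat.blt t (Nat.mul 6 K) && Nat.blt w 4 && Nat.blt c 6 && Nat.blt o (Nat.mul 12 K) && Nat.blt 0 NP &&
      (bif Nat.beq (w % 2) 1 then (Nat.blt 0 (dd K o t) && Nat.blt (dd K o t) (Nat.mul 6 K)) else !(outb K o t)))
    (ng2 (ltv K NP t w c) (prv K 0 o c)) 3

/-- sides at the points of the circle -/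
def ctC (K NP TB t w c o : ℕ) : ℕ :=
  br (Nat.blt t (Nat.mul 6 K) && Nat.blt w 4 && Nat.blt c 6 && Nat.blt o (Nat.mul 12 K) &&
      Nat.blt (Nat.succ t) NP && Nat.beq (nb K TB (Nat.succ t) t) 0 && Nat.blt 0 NP &&
      (bif Nat.beq (w % 2) 1 then !(outb K o t) else outb K o t))
    (ng2 (ltv K NP t w c) (prv K (Nat.succ t) o c)) 3

/-- domains of letters -/
def leC (K NP DT t w : ℕ) : ℕ :=
  br (Nat.blt t (Nat.mul 6 K) && Nat.blt w 4)
    (blk (dm DT (Nat.add (Nat.mul 4 t) w)) (Nat.add (Nat.mul NP (Nat.mul 12 K)) (Nat.add (Nat.mul 4 t) w))) 3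

/-- letters are unique -/
def onC (K NP t w c d : ℕ) : ℕ :=
  br (Nat.blt w 4 && Nat.blt c 6 && Nat.blt d 6 && !(Nat.beq c d)) (ng2 (ltv K NP t w c) (ltv K NP t w d)) 3

/-- inner and outer letter are different -/
def twC (K NP t s c : ℕ) : ℕ :=
  br (Nat.blt s 2 && Nat.blt c 6) (ng2 (ltv K NP t (Nat.mul 2 s) c) (ltv K NP t (Nat.succ (Nat.mul 2 s)) c)) 3

/-- letters at distance 60 degrees are different -/
def siC (K NP t w w2 c : ℕ) : ℕ :=
  br (Nat.blt w 4 && Nat.blt w2 4 && Nat.blt c 6 && Nat.beq (w / 2) (w2 / 2))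
    (ng2 (ltv K NP t w c) (ltv K NP (Nat.mod (Nat.add t K) (Nat.mul 6 K)) w2 c)) 3

/-- the clause of a code -/
def inp (K NP TB DT n : ℕ) : ℕ :=
  br (Nat.beq (fd n 0) 1) (crC K NP TB (fd n 7) (fd n 14) (fd n 21) (fd n 28) (fd n 35)) <|
  br (Nat.beq (fd n 0) 2) (arC K NP TB (fd n 7) (fd n 14) (fd n 21) (fd n 28) (fd n 35)) <|
  br (Nat.beq (fd n 0) 4) (haC K NP (fd n 7) (fd n 14) (fd n 21) (fd n 28)) <|
  br (Nat.beq (fd n 0) 0) (exC K NP (fd n 7) (fd n 14)) <|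
  br (Nat.beq (fd n 0) 3) (taC K NP (fd n 7) (fd n 14) (fd n 21) (fd n 28)) <|
  br (Nat.beq (fd n 0) 5) (ctC K NP TB (fd n 7) (fd n 14) (fd n 21) (fd n 28)) <|
  br (Nat.beq (fd n 0) 6) (leC K NP DT (fd n 7) (fd n 14)) <|
  br (Nat.beq (fd n 0) 7) (onC K NP (fd n 7) (fd n 14) (fd n 21) (fd n 28)) <|
  br (Nat.beq (fd n 0) 8) (twC K NP (fd n 7) (fd n 14) (fd n 21)) <|
  siC K NP (fd n 7) (fd n 14) (fd n 21) (fd n 28)

theorem br_sat {a : ℕ → Bool} {b : Bool} {x y : ℕ} (h1 : b = true → Sat a x) (h2 : Sat a y) : Sat a (br b x y) := by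
  cases b
  · exact h2
  · exact h1 rfl

theorem blt_iff {a b : ℕ} : Nat.blt a b = true ↔ a < b := by
  unfold Nat.blt; rw [Nat.ble_eq]; exact Iff.rfl

namespace Sy

variable {K NP TB : ℕ} {P : ℕ → ℂ} {a : ℕ → ℝ} {σ : Fin 6 → Fin 6} {DT : ℕ} (S : Sy K NP TB P a σ U T z DT)
include S

theorem exC_sat (p o : ℕ) : Sat (ab K NP P a σ U T z) (exC K NP p o) := by
  refine br_sat (fun h => ?_) (sat_three _)
  simp only [Bool.and_eq_true, blt_iff] at h
  obtain ⟨hp, ho⟩ := h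
  obtain ⟨c', hc'⟩ := S.cen.irr.exists_dx (P p) (ry a o)
  obtain ⟨c, hc, rfl⟩ := S.cl_surj c'
  refine sat_blk (c := c) ?_ (S.ab_prv hp ho hc hc')
  interval_cases c <;> decide

theorem crC_sat (p o t o2 c : ℕ) : Sat (ab K NP P a σ U T z) (crC K NP TB p o t o2 c) := by
  refine br_sat (fun h => ?_) (sat_three _)
  simp only [Bool.and_eq_true, blt_iff] at h
  obtain ⟨⟨⟨⟨⟨⟨hp, hy⟩, ho⟩, ho2⟩, ht⟩, hc⟩, hx⟩ := h
  have ho : o < 12 * K := ho
  have ho2 : o2 < 12 * K := ho2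
  have hcc : outb K o t ≠ outb K o2 (t + 3 * K) ∨ o = o2 := by
    rw [Bool.or_eq_true] at hx
    rcases hx with hx | hx
    · left
      intro h1
      rw [h1] at hx
      have h3 : Nat.add t (Nat.mul 3 K) = t + 3 * K := rfl
      rw [h3, Bool.xor_self] at hx
      cases hx
    · right
      exact Nat.eq_of_beq_eq_true hx
  by_cases hd : Dx T (P (nb K TB p t)) (ry a o2) (cl σ c)
  · refine sat_or_left ?_
    obtain ⟨c', h1, h2⟩ := S.tick.cross S.cen.irr (S.edge p t hp ht hy) ho.le ho2.le hcc hd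
    obtain ⟨d, hd6, rfl⟩ := S.cl_surj c'
    have hne : d ≠ c := fun h => h1 (by rw [h])
    refine sat_blk (c := d) ?_ (S.ab_prv hp ho hd6 h2)
    clear h1 h2 hd hx hcc
    interval_cases c <;> interval_cases d <;> first | exact absurd rfl hne | decide
  · exact sat_or_right (sat_ngm (S.ab_prv_false hy ho2 hc hd))

theorem P_succ {t : ℕ} (ht : t < 6 * K) (h1 : Nat.succ t < NP) (h2 : Nat.beq (nb K TB (Nat.succ t) t) 0 = true) :
    P (Nat.succ t) = z + dir (a t) := by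
  have h3 := Nat.eq_of_beq_eq_true h2
  have h4 := S.edge (Nat.succ t) t h1 ht (by rw [h3]; omega)
  rw [h4, h3, S.zero]

theorem arC_sat (t w c t1 o : ℕ) : Sat (ab K NP P a σ U T z) (arC K NP TB t w c t1 o) := by
  refine br_sat (fun h => ?_) (sat_three _)
  simp only [Bool.and_eq_true, blt_iff] at h
  obtain ⟨⟨⟨⟨⟨⟨⟨⟨⟨ht, hw⟩, hc⟩, ht1⟩, hy⟩, ho⟩, hv⟩, h0⟩, hd⟩, hx⟩ := h
  have ht : t < 6 * K := ht
  have ho : o < 12 * K := ho
  refine S.kill hw hc hy ho ?_
  have hP := S.P_succ ht hv h0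
  have he := S.edge (Nat.succ t) t1 hv ht1 hy
  rw [hP] at he
  refine S.tick.arc_kill (z := z) (s := Nat.beq (w / 2 % 2) 1) S.cen.irr he (by omega) ho.le ?_ ?_
    (hc_lt S.cen _ _ _)
  · simpa using hd
  · intro h1
    rw [h1] at hx
    have h3 : Nat.add t1 (Nat.mul 3 K) = t1 + 3 * K := rfl
    rw [h3, Bool.xor_self] at hx
    cases hx

theorem taC_sat (t w c o : ℕ) : Sat (ab K NP P a σ U T z) (taC K NP t w c o) := by
  refine br_sat (fun h => ?_) (sat_three _)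
  simp only [Bool.and_eq_true, blt_iff] at h
  obtain ⟨⟨⟨⟨⟨ht, hw⟩, hc⟩, ho⟩, h0⟩, hd⟩ := h
  have ho : o < 12 * K := ho
  refine S.kill hw hc h0 ho ?_
  rw [S.zero]
  exact S.tick.tan_kill S.cen.irr ho.le (Nat.eq_of_beq_eq_true hd) (hc_lt S.cen _ _ _)

theorem haC_sat (t w c o : ℕ) : Sat (ab K NP P a σ U T z) (haC K NP t w c o) := by
  refine br_sat (fun h => ?_) (sat_three _)
  simp only [Bool.and_eq_true, blt_iff] at h
  obtain ⟨⟨⟨⟨⟨ht, hw⟩, hc⟩, ho⟩, h0⟩, hd⟩ := h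
  have ho : o < 12 * K := ho
  refine S.kill hw hc h0 ho ?_
  rw [S.zero]
  unfold ltw
  cases h1 : Nat.beq (w % 2) 1
  · rw [h1, cond_false] at hd
    exact half_in S.cen S.tick ho.le (by simpa using hd)
  · rw [h1, cond_true, Bool.and_eq_true, blt_iff, blt_iff] at hd
    exact half_out S.cen S.tick ho.le hd.1 hd.2

theorem ctC_sat (t w c o : ℕ) : Sat (ab K NP P a σ U T z) (ctC K NP TB t w c o) := by
  refine br_sat (fun h => ?_) (sat_three _)
  simp only [Bool.and_eq_true, blt_iff] at h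
  obtain ⟨⟨⟨⟨⟨⟨⟨ht, hw⟩, hc⟩, ho⟩, hv⟩, h0⟩, hn⟩, hd⟩ := h
  have ht : t < 6 * K := ht
  have ho : o < 12 * K := ho
  refine S.kill hw hc hv ho ?_
  rw [S.P_succ ht hv h0]
  unfold ltw
  cases h1 : Nat.beq (w % 2) 1
  · rw [h1, cond_false] at hd
    exact ct_in S.cen S.tick ho.le hd
  · rw [h1, cond_true] at hd
    exact ct_out S.cen S.tick ho.le (by simpa using hd)

theorem leC_sat (t w : ℕ) : Sat (ab K NP P a σ U T z) (leC K NP DT t w) := by
  refine br_sat (fun h => ?_) (sat_three _)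
  simp only [Bool.and_eq_true, blt_iff] at h
  obtain ⟨ht, hw⟩ := h
  obtain ⟨c, hc, h1, h2⟩ := S.dom t w ht hw
  exact sat_blk (c := c) h1 (S.ab_ltv hw hc h2)

theorem onC_sat (t w c d : ℕ) : Sat (ab K NP P a σ U T z) (onC K NP t w c d) := by
  refine br_sat (fun h => ?_) (sat_three _)
  simp only [Bool.and_eq_true, blt_iff] at h
  obtain ⟨⟨⟨hw, hc⟩, hd⟩, hcd⟩ := h
  refine sat_ng2 fun h1 => S.ab_ltv_false hw hd fun h2 => ?_
  have h3 := S.of_ab_ltv hw hc h1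
  rw [h2] at h3
  have h4 := S.cl_inj hd hc h3
  subst h4
  simp at hcd

theorem twC_sat (t s c : ℕ) : Sat (ab K NP P a σ U T z) (twC K NP t s c) := by
  refine br_sat (fun h => ?_) (sat_three _)
  simp only [Bool.and_eq_true, blt_iff] at h
  obtain ⟨hs, hc⟩ := h
  have e1 : Nat.mul 2 s = 2 * s := rfl
  have e2 : Nat.succ (Nat.mul 2 s) = 2 * s + 1 := rfl
  rw [e2, e1]
  refine sat_ng2 fun h1 => S.ab_ltv_false (by omega) hc fun h2 => ?_
  have h3 := S.of_ab_ltv (by omega) hc h1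
  rw [← h2] at h3
  unfold ltw at h3
  have e3 : (2 * s + 1) / 2 % 2 = 2 * s / 2 % 2 := by omega
  have e4 : (2 * s + 1) % 2 = 1 := by omega
  have e5 : 2 * s % 2 = 0 := by omega
  rw [e3, e4, e5] at h3
  exact lt_two S.cen _ _ h3

theorem ltw_mod (w t : ℕ) : ltw U T z w (a (t % (6 * K))) = ltw U T z w (a t) := by
  have h1 := Nat.mod_add_div t (6 * K)
  have h2 : t = t % (6 * K) + (t / (6 * K) * 6) * K := by
    have e : 6 * K * (t / (6 * K)) = t / (6 * K) * 6 * K := by ring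
    omega
  have h3 : a t = a (t % (6 * K)) + ((t / (6 * K) * 6 : ℕ) : ℝ) := by
    conv_lhs => rw [h2, S.tick.per_mul]
  rw [h3]
  generalize a (t % (6 * K)) = x
  generalize t / (6 * K) = q
  have key : ∀ (s io : Bool), lt U T z s io (x + ((q * 6 : ℕ) : ℝ)) = lt U T z s io x := by
    intro s io
    induction q with
    | zero => simp
    | succ q ih =>
      have : x + (((q + 1) * 6 : ℕ) : ℝ) = x + ((q * 6 : ℕ) : ℝ) + 6 := by push_cast; ring
      rw [this, ← ih]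
      cases s <;> cases io <;> simp only [lt, cond_true, cond_false]
      · rw [S.cen.ll_six]
      · rw [S.cen.ll_six]
      · rw [S.cen.lr_six]
      · rw [S.cen.lr_six]
  exact (key _ _).symm

theorem siC_sat (t w w2 c : ℕ) : Sat (ab K NP P a σ U T z) (siC K NP t w w2 c) := by
  refine br_sat (fun h => ?_) (sat_three _)
  simp only [Bool.and_eq_true, blt_iff] at h
  obtain ⟨⟨⟨hw, hw2⟩, hc⟩, he⟩ := h
  refine sat_ng2 fun h1 => S.ab_ltv_false hw2 hc fun h2 => ?_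
  have h3 := S.of_ab_ltv hw hc h1
  have e1 : Nat.mod (Nat.add t K) (Nat.mul 6 K) = (t + K) % (6 * K) := rfl
  rw [e1, S.ltw_mod, S.tick.per] at h2
  rw [← h2] at h3
  unfold ltw at h3
  have e2 := Nat.eq_of_beq_eq_true he
  have e3 : w / 2 % 2 = w2 / 2 % 2 := by rw [e2]
  rw [e3] at h3
  exact lt_sixty S.cen _ _ _ _ h3

/-- every code gives a clause which holds -/
theorem inp_sat (n : ℕ) : Sat (ab K NP P a σ U T z) (inp K NP TB DT n) := by
  unfold inp
  refine br_sat (fun _ => S.crC_sat _ _ _ _ _) ?_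
  refine br_sat (fun _ => S.arC_sat _ _ _ _ _) ?_
  refine br_sat (fun _ => S.haC_sat _ _ _ _) ?_
  refine br_sat (fun _ => S.exC_sat _ _) ?_
  refine br_sat (fun _ => S.taC_sat _ _ _ _) ?_
  refine br_sat (fun _ => S.ctC_sat _ _ _ _) ?_
  refine br_sat (fun _ => S.leC_sat _ _) ?_
  refine br_sat (fun _ => S.onC_sat _ _ _ _) ?_
  refine br_sat (fun _ => S.twC_sat _ _ _) ?_
  exact S.siC_sat _ _ _ _

end Sy

/-- clauses of a list of codes, followed by `l` -/
def inl (K NP TB DT : ℕ) (cs l : List ℕ) : List ℕ :=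
  @List.rec ℕ (fun _ => List ℕ) l (fun x _ ih => inp K NP TB DT x :: ih) cs

theorem inl_sat {K NP TB : ℕ} {P : ℕ → ℂ} {a : ℕ → ℝ} {σ : Fin 6 → Fin 6} {DT : ℕ}
    (S : Sy K NP TB P a σ U T z DT) {l : List ℕ} (hl : ∀ C ∈ l, Sat (ab K NP P a σ U T z) C) :
    ∀ cs : List ℕ, ∀ C ∈ inl K NP TB DT cs l, Sat (ab K NP P a σ U T z) C := by
  intro cs
  induction cs with
  | nil => exact hl
  | cons x cs ih =>
    intro C hC
    have hC : C ∈ inp K NP TB DT x :: inl K NP TB DT cs l := hC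
    rcases List.mem_cons.1 hC with h | h
    · rw [h]; exact S.inp_sat x
    · exact ih C h

/-- **The engine.** -/
theorem engine {K NP TB : ℕ} {P : ℕ → ℂ} {a : ℕ → ℝ} {σ : Fin 6 → Fin 6} {DT : ℕ}
    (S : Sy K NP TB P a σ U T z DT) {l : List ℕ} (hl : ∀ C ∈ l, Sat (ab K NP P a σ U T z) C)
    {B fuel : ℕ} {t : Db} {cs hs : List ℕ} (h : check B fuel t (inl K NP TB DT cs l) hs = true) : False :=
  check_sound h _ (inl_sat S hl cs)

/-- a mask from the digits of a code in base `2 ^ 15` (digits are literals plus one) -/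
def dmk (fuel : ℕ) : ℕ → ℕ := @Nat.rec (fun _ => ℕ → ℕ) (fun _ => 0)
  (fun _ ih x => br (Nat.beq x 0) 0
    (Nat.lor (Nat.shiftLeft 1 (Nat.sub (Nat.land x 32767) 1)) (ih (Nat.shiftRight x 15)))) fuel

/-- masks of a list of codes -/
def dml (fuel : ℕ) (cs : List ℕ) : List ℕ :=
  @List.rec ℕ (fun _ => List ℕ) [] (fun x _ ih => dmk fuel x :: ih) cs

/-- concatenation -/
def app (l m : List ℕ) : List ℕ := @List.rec ℕ (fun _ => List ℕ) m (fun x _ ih => x :: ih) l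

/-- a word which is excluded: negative literals -/
def nwm (K NP t0 w : ℕ) (c : ℕ → ℕ) : ℕ := @Nat.rec (fun _ => ℕ) 0
  (fun k ih => Nat.lor ih (ngm (ltv K NP (Nat.add (Nat.mul K k) t0) w (c k)))) 6

theorem nwm_sat {K NP TB : ℕ} {P : ℕ → ℂ} {a : ℕ → ℝ} {σ : Fin 6 → Fin 6} {DT : ℕ}
    (S : Sy K NP TB P a σ U T z DT) {t0 w : ℕ} (hw : w < 4) {c : ℕ → ℕ} {k : ℕ} (hk : k < 6) (hc : c k < 6)
    (h : ltw U T z w (a (K * k + t0)) ≠ cl σ (c k)) : Sat (ab K NP P a σ U T z) (nwm K NP t0 w c) := by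
  have h1 := sat_ngm (S.ab_ltv_false hw hc h)
  have key : ∀ n, k < n → Sat (ab K NP P a σ U T z) (@Nat.rec (fun _ => ℕ) 0
      (fun k ih => Nat.lor ih (ngm (ltv K NP (Nat.add (Nat.mul K k) t0) w (c k)))) n) := by
    intro n
    induction n with
    | zero => intro h; exact absurd h (Nat.not_lt_zero _)
    | succ n ih =>
      intro hn
      rcases Nat.lt_succ_iff_lt_or_eq.1 hn with h2 | h2
      · exact sat_or_left (ih h2)
      · subst h2; exact sat_or_right h1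
  exact key 6 hk

end Vale.Agent.P032.H913
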