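import Vale.Agent.P032.H913.Geo

/-!
# P032: crossing rules for rays and half arcs given by ticks

`outb K o t` : the ray `o` at a point `p` leaves the unit disc about `p - dir (a t)`.

* `Tick.cross` : R1 and the rule of parallel rays,
* `Tick.arc_kill` : R2, `Tick.tan_kill` : the tangent ray at the centre,
* `Tick.half_in_R` .. : half planes at the centre, `Tick.ct_out`, `Tick.ct_in` : sides at a point of the circle.
-/

open Set Filter Topology Metric

noncomputable section

namespace Vale.Agent.P032.H913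

open Vale.Agent.P032.Six Vale.Agent.P032.H892 Vale.Agent.P032.S5.H767

variable {U : Fin 6 → Set ℂ} {T : ℂ → Set (Fin 6)} {z : ℂ}

/-- the angle (in half ticks) of the tick `t` relative to the ray `o`, turned by 90 degrees -/
def dd (K o t : ℕ) : ℕ := (2 * t + 12 * K - o) % (12 * K)

/-- the ray `o` at `p` leaves the disc about `p - dir (a t)` -/
def outb (K o t : ℕ) : Bool := Nat.ble (dd K o t) (6 * K)

theorem dir_perz (x : ℝ) (n : ℤ) : dir (x + 6 * n) = dir x := by
  obtain ⟨m, rfl | rfl⟩ := n.eq_nat_or_neg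
  · exact_mod_cast dir_per x m
  · have := dir_per (x + 6 * ((-(m : ℤ) : ℤ) : ℝ)) m
    rw [← this]
    congr 1
    push_cast; ring

namespace Tick

variable {K : ℕ} {a : ℕ → ℝ} (A : Tick K a)
include A

theorem out_of {p y : ℂ} {t o : ℕ} (e : p = y + dir (a t)) (ho : o ≤ 12 * K) (h : outb K o t = true) :
    OutR p (ry a o) y := by
  have h1 : dist p y = 1 := by rw [e, dist_eq_norm, add_sub_cancel_left, norm_dir]
  refine OutR.of_nonneg h1 ?_ (dir_ne _)
  rw [e, add_sub_cancel_left]
  exact A.ip_nonneg ho (Nat.le_of_ble_eq_true h)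

theorem in_of {p y : ℂ} {t o : ℕ} (e : p = y + dir (a t)) (ho : o ≤ 12 * K) (h : outb K o t = false) :
    InR p (ry a o) y := by
  have h1 : dist p y = 1 := by rw [e, dist_eq_norm, add_sub_cancel_left, norm_dir]
  refine InR.of_neg h1 ?_
  rw [e, add_sub_cancel_left]
  refine A.ip_neg ho ?_
  unfold outb at h
  by_contra hcon
  push Not at hcon
  have := Nat.ble_eq_true_of_le (show dd K o t ≤ 6 * K from hcon)
  rw [this] at h
  cases h

theorem opp {p y : ℂ} {t : ℕ} (e : p = y + dir (a t)) : y = p + dir (a (t + 3 * K)) := by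
  rw [A.dir_opp, e]; ring

/-- **R1** -/
theorem cross (h : Irr U T) {p y : ℂ} {t o o2 : ℕ} {c : Fin 6} (e : p = y + dir (a t)) (ho : o ≤ 12 * K)
    (ho2 : o2 ≤ 12 * K) (hc : outb K o t ≠ outb K o2 (t + 3 * K) ∨ o = o2)
    (hd : Dx T y (ry a o2) c) : ∃ c', c' ≠ c ∧ Dx T p (ry a o) c' := by
  rcases hc with hc | hc
  · refine h.dx_ray ?_ hd
    cases h1 : outb K o t <;> cases h2 : outb K o2 (t + 3 * K)
    · rw [h1, h2] at hc; exact absurd rfl hc
    · exact Or.inr ⟨A.in_of e ho h1, A.out_of (A.opp e) ho2 h2⟩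
    · exact Or.inl ⟨A.out_of e ho h1, A.in_of (A.opp e) ho2 h2⟩
    · rw [h1, h2] at hc; exact absurd rfl hc
  · subst hc
    exact h.dx_par (by rw [e, dist_eq_norm, add_sub_cancel_left, norm_dir]) hd

/-- side of a half arc: `s = true` after the tick, `s = false` before the tick -/
def _root_.Vale.Agent.P032.H913.sgn (s : Bool) : ℝ := bif s then 1 else -1

omit A in
theorem sgn_or (s : Bool) : sgn s = 1 ∨ sgn s = -1 := by cases s <;> simp [sgn]

/-- the half arc at the tick `t` of a circle leaves the disc about the point minus `dir (a t1)` -/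
def _root_.Vale.Agent.P032.H913.arco (K : ℕ) (s : Bool) (t t1 : ℕ) : Bool :=
  Nat.beq (dd K (2 * t) t1) (6 * K) ||
    (bif s then Nat.blt (dd K (2 * t) t1) (6 * K) else Nat.blt (6 * K) (dd K (2 * t) t1))

omit A in
theorem ip_tan {t t1 : ℕ} (s : Bool) : ip ((sgn s : ℝ) * (Complex.I * dir (a t))) (dir (a t1)) =
    sgn s * ip (ry a (2 * t)) (dir (a t1)) := by
  have e : ry a (2 * t) = Complex.I * dir (a t) := by unfold ry; rw [mid_even, dir_quarter]
  rw [e]
  unfold ip
  simp only [Complex.mul_re, Complex.mul_im, Complex.ofReal_re, Complex.ofReal_im]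
  ring

/-- **R2** -/
theorem arc_kill (h : Irr U T) {y : ℂ} {t t1 o : ℕ} {s : Bool} {i : Fin 6}
    (e : z + dir (a t) = y + dir (a t1)) (ht : 2 * t ≤ 12 * K) (ho : o ≤ 12 * K)
    (h0 : Nat.beq (dd K (2 * t) t1) 0 = false) (hc : arco K s t t1 ≠ outb K o (t1 + 3 * K))
    (hA : Hc U z (z + dir (a t)) (sgn s) i) : ¬ Dx T y (ry a o) i := by
  have hvy : dist (z + dir (a t)) y = 1 := by rw [e, dist_eq_norm, add_sub_cancel_left, norm_dir]
  have hvz : dist (z + dir (a t)) z = 1 := by rw [dist_eq_norm, add_sub_cancel_left, norm_dir]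
  have h0' : dd K (2 * t) t1 ≠ 0 := by
    intro h1
    rw [h1] at h0
    cases h0
  have hout : arco K s t t1 = true → OutA z (z + dir (a t)) (sgn s) y := by
    intro h1
    by_cases h2 : dd K (2 * t) t1 = 6 * K
    · -- the opposite point
      have h3 : dir (a t1) = -dir (a t) := by
        obtain ⟨q, hq⟩ := A.diff (ρ := 2 * t) (t := t1) ht
        have h4 : (2 * t1 + 12 * K - 2 * t) % (12 * K) = 6 * K := h2
        rw [h4, A.mid_six, mid_even] at hq
        have h5 : a t1 = a t + 3 + 6 * q := by linarith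
        rw [h5, dir_perz, dir_add_three]
      have h4 : y = 2 * (z + dir (a t)) - z := by
        rw [h3] at e
        have : y = z + dir (a t) + dir (a t) := by rw [e]; ring
        rw [this]; ring
      rw [h4]
      exact OutA.of_two hvz (sgn_or s)
    · refine OutA.of_pos hvy ?_
      rw [e, add_sub_cancel_left, ← e, add_sub_cancel_left, ip_tan]
      have h3 : (bif s then Nat.blt (dd K (2 * t) t1) (6 * K) else Nat.blt (6 * K) (dd K (2 * t) t1)) = true := by
        unfold arco at h1
        rw [Bool.or_eq_true] at h1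
        rcases h1 with h1 | h1
        · exact absurd (Nat.eq_of_beq_eq_true h1) h2
        · exact h1
      cases s
      · have h4 := A.ip_neg (ρ := 2 * t) (t := t1) ht (by simpa [Nat.blt, dd] using h3)
        simp only [sgn, cond_false]
        linarith
      · have h4 := A.ip_pos (ρ := 2 * t) (t := t1) ht (Nat.pos_of_ne_zero h0') (by simpa [Nat.blt, dd] using h3)
        simp only [sgn, cond_true]
        linarith
  have hin : arco K s t t1 = false → InA z (z + dir (a t)) (sgn s) y := by
    intro h1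
    refine InA.of_neg hvy ?_
    rw [e, add_sub_cancel_left, ← e, add_sub_cancel_left, ip_tan]
    unfold arco at h1
    rw [Bool.or_eq_false_iff] at h1
    obtain ⟨h1, h3⟩ := h1
    have h2 : dd K (2 * t) t1 ≠ 6 * K := by
      intro h2
      rw [h2] at h1
      simp at h1
    cases s
    · have h5 : dd K (2 * t) t1 ≤ 6 * K := by
        by_contra hcon
        push Not at hcon
        have h6 : Nat.ble (6 * K + 1) (dd K (2 * t) t1) = true := Nat.ble_eq_true_of_le hcon
        have h7 : Nat.ble (6 * K + 1) (dd K (2 * t) t1) = false := h3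
        rw [h6] at h7
        cases h7
      have h4 := A.ip_pos (ρ := 2 * t) (t := t1) ht (Nat.pos_of_ne_zero h0')
        (show dd K (2 * t) t1 < 6 * K by omega)
      simp only [sgn, cond_false]
      linarith
    · have h5 : 6 * K ≤ dd K (2 * t) t1 := by
        by_contra hcon
        push Not at hcon
        have h6 : Nat.ble (dd K (2 * t) t1 + 1) (6 * K) = true := Nat.ble_eq_true_of_le hcon
        have h7 : Nat.ble (dd K (2 * t) t1 + 1) (6 * K) = false := h3
        rw [h6] at h7
        cases h7
      have h4 := A.ip_neg (ρ := 2 * t) (t := t1) ht (show 6 * K < dd K (2 * t) t1 by omega)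
      simp only [sgn, cond_true]
      linarith
  refine h.not_dx_ray_arc ?_ hA
  cases h1 : arco K s t t1 <;> cases h2 : outb K o (t1 + 3 * K)
  · rw [h1, h2] at hc; exact absurd rfl hc
  · exact Or.inr ⟨hin h1, A.out_of (A.opp e) ho h2⟩
  · exact Or.inl ⟨hout h1, A.in_of (A.opp e) ho h2⟩
  · rw [h1, h2] at hc; exact absurd rfl hc

/-- the tangent ray at the centre in the direction of the half arc -/
theorem tan_kill (h : Irr U T) {t o : ℕ} {s : Bool} {i : Fin 6} (ho : o ≤ 12 * K)
    (hd : dd K o t = bif s then 0 else 6 * K) (hA : Hc U z (z + dir (a t)) (sgn s) i) :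
    ¬ Dx T z (ry a o) i := by
  have hvz : dist (z + dir (a t)) z = 1 := by rw [dist_eq_norm, add_sub_cancel_left, norm_dir]
  have e : ry a o = sgn s * (Complex.I * dir (a t)) := by
    obtain ⟨q, hq⟩ := A.diff (ρ := o) (t := t) ho
    unfold dd at hd
    rw [hd] at hq
    cases s
    · simp only [cond_false] at hq
      rw [A.mid_six] at hq
      have h5 : mid a o + 3 / 2 + 3 = a t + 3 / 2 + 6 * ((-q : ℤ) : ℝ) := by push_cast; linarith
      have h6 : ry a o = -dir (mid a o + 3 / 2 + 3) := by unfold ry; rw [dir_add_three, neg_neg]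
      rw [h6, h5, dir_perz, dir_quarter]
      simp [sgn]
    · simp only [cond_true] at hq
      rw [add_zero] at hq
      have h5 : mid a o + 3 / 2 = a t + 3 / 2 + 6 * ((-q : ℤ) : ℝ) := by push_cast; linarith
      unfold ry
      rw [h5, dir_perz, dir_quarter]
      simp [sgn]
  refine h.not_dx_ray_tan hvz (sgn_or s) ?_ ?_ hA
  · rw [add_sub_cancel_left]
    refine A.ip_zero ho ?_
    unfold dd at hd
    cases s
    · exact Or.inr hd
    · exact Or.inl hd
  · rw [add_sub_cancel_left, ← e]
    exact ip_self_pos (dir_ne _)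

end Tick

/-- exact rays as limit directions -/
theorem dr_ry {a : ℕ → ℝ} {o : ℕ} {c : Fin 6} (h : Dx T z (ry a o) c) : mid a o + 3 / 2 ∈ Dr T z c :=
  dr_of_dx h

/-- letters on the two sides of a tick: `s = true` after, `s = false` before; `io = false` inner, `io = true` outer -/
def lt (U : Fin 6 → Set ℂ) (T : ℂ → Set (Fin 6)) (z : ℂ) (s io : Bool) (u : ℝ) : Fin 6 :=
  bif s then (bif io then (LR U T z u).2 else (LR U T z u).1)
  else (bif io then (LL U T z u).2 else (LL U T z u).1)

section
variable (C : C6 U T z)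
include C

theorem hc_lt (s io : Bool) (u : ℝ) : Hc U z (z + dir u) (sgn s) (lt U T z s io u) := by
  cases s
  · cases io
    · exact C.hc_L u (Or.inl rfl)
    · exact C.hc_L u (Or.inr rfl)
  · cases io
    · exact C.hc_R u (Or.inl rfl)
    · exact C.hc_R u (Or.inr rfl)

/-- half planes at the centre: inner letters -/
theorem half_in {K : ℕ} {a : ℕ → ℝ} (A : Tick K a) {s : Bool} {t o : ℕ} (ho : o ≤ 12 * K)
    (hd : outb K o t = false) : ¬ Dx T z (ry a o) (lt U T z s false (a t)) := by
  intro h
  have h1 := A.in_of (p := z + dir (a t)) (y := z) rfl ho hd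
  have h2 : ip (ry a o) (dir (a t)) < 0 := by
    refine A.ip_neg ho ?_
    unfold outb at hd
    by_contra hcon
    push Not at hcon
    have := Nat.ble_eq_true_of_le (show dd K o t ≤ 6 * K from hcon)
    rw [this] at hd
    cases hd
  have h3 : ip (ry a o) (dir (a t)) = Real.cos ((mid a o + 3 / 2 - a t) * (Real.pi / 3)) := ip_dir _ _
  rw [h3] at h2
  cases s
  · exact absurd (C.dir_L_in (dr_ry h)) (not_le.2 h2)
  · exact absurd (C.dir_R_in (dr_ry h)) (not_le.2 h2)

/-- half planes at the centre: outer letters -/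
theorem half_out {K : ℕ} {a : ℕ → ℝ} (A : Tick K a) {s : Bool} {t o : ℕ} (ho : o ≤ 12 * K)
    (h0 : 0 < dd K o t) (h1 : dd K o t < 6 * K) : ¬ Dx T z (ry a o) (lt U T z s true (a t)) := by
  intro h
  have h2 := A.ip_pos ho h0 h1
  have h3 : ip (ry a o) (dir (a t)) = Real.cos ((mid a o + 3 / 2 - a t) * (Real.pi / 3)) := ip_dir _ _
  rw [h3] at h2
  cases s
  · exact absurd (C.dir_L_out (dr_ry h)) (not_le.2 h2)
  · exact absurd (C.dir_R_out (dr_ry h)) (not_le.2 h2)

/-- sides at a point of the circle: inner letters are absent outside -/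
theorem ct_in {K : ℕ} {a : ℕ → ℝ} (A : Tick K a) {s : Bool} {t o : ℕ} (ho : o ≤ 12 * K)
    (hd : outb K o t = true) : ¬ Dx T (z + dir (a t)) (ry a o) (lt U T z s false (a t)) := by
  have h1 : OutF U z (pt z (a t)) (lt U T z s false (a t)) := by
    cases s
    · exact (C.sided_L (a t)).1
    · exact (C.sided_R (a t)).1
  exact C.irr.not_dx_outR h1 (A.out_of rfl ho hd)

/-- sides at a point of the circle: outer letters are absent inside -/
theorem ct_out {K : ℕ} {a : ℕ → ℝ} (A : Tick K a) {s : Bool} {t o : ℕ} (ho : o ≤ 12 * K)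
    (hd : outb K o t = false) : ¬ Dx T (z + dir (a t)) (ry a o) (lt U T z s true (a t)) := by
  have h1 : InF U z (pt z (a t)) (lt U T z s true (a t)) := by
    cases s
    · exact (C.sided_L (a t)).2
    · exact (C.sided_R (a t)).2
  exact C.irr.not_dx_inR h1 (A.in_of rfl ho hd)

theorem lt_two (s : Bool) (u : ℝ) : lt U T z s false u ≠ lt U T z s true u := by
  cases s
  · have := (C.stat_L u).two 0
    simpa [lt, SL] using this
  · have := (C.stat_R u).two 0
    simpa [lt, SR] using this

theorem lt_sixty (s io io2 : Bool) (u : ℝ) : lt U T z s io u ≠ lt U T z s io2 (u + 1) := by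
  have h01 : (((0 : Fin 6) + 1 : Fin 6).val : ℝ) = 1 := by norm_num
  cases s
  · obtain ⟨h1, h2, h3, h4⟩ := (C.stat_L u).sixty 0
    simp only [SL, h01, Fin.val_zero, Nat.cast_zero, add_zero] at h1 h2 h3 h4
    cases io <;> cases io2 <;> simp only [lt, cond_true, cond_false] <;> assumption
  · obtain ⟨h1, h2, h3, h4⟩ := (C.stat_R u).sixty 0
    simp only [SR, h01, Fin.val_zero, Nat.cast_zero, add_zero] at h1 h2 h3 h4
    cases io <;> cases io2 <;> simp only [lt, cond_true, cond_false] <;> assumption

end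

end Vale.Agent.P032.H913
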