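import Vale.Agent.P032.H89.SysR
import Vale.Agent.P032.H139.Lrat
import Mathlib.Tactic

/-!
# P032: certificates for the finite system with seven nodes, atoms and clauses

Atoms: `T p c` (colour in the palette of a node), `E p m` (some exact letter of the node `p` inside
the set of colours `m`), `B p a b` (`b` in the palette, no exact letter `{a, b}`), `X p j c` (colour
in a letter of the state), `W`, `D`, `F` (auxiliary).  `cls` turns a code into a clause which holds
in every system.
-/

set_option linter.unusedSectionVars false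

noncomputable section

namespace Vale.Agent.P032.H913.SR

open Vale.Agent.P032.H89
open Vale.Agent.P032.H139.Lrat (Sat lit br br_true br_false Db check check_sound)

/-- atoms -/
inductive At : Type
  | T : ℕ → ℕ → At
  | E : ℕ → ℕ → At
  | B : ℕ → ℕ → ℕ → At
  | X : ℕ → ℕ → ℕ → At
  | W : ℕ → ℕ → ℕ → At
  | D : ℕ → ℕ → ℕ → At
  | F : ℕ → ℕ → At

/-- the number of an atom -/
def At.num : At → ℕ
  | .T p c => 6 * p + c
  | .E p m => 42 + 64 * p + m
  | .B p a b => 6 * (82 + 6 * p + a) + b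
  | .X p j c => 6 * (124 + 6 * p + j) + c
  | .W p j c => 6 * (166 + 6 * p + j) + c
  | .D p j c => 6 * (208 + 6 * p + j) + c
  | .F p j => 1500 + 6 * p + j

/-- admissible arguments -/
def At.ok : At → Bool
  | .T p c => Nat.blt p 7 && Nat.blt c 6
  | .E p m => Nat.blt p 7 && Nat.blt m 64
  | .B p a b => Nat.blt p 7 && (Nat.blt a 6 && Nat.blt b 6)
  | .X p a b => Nat.blt p 7 && (Nat.blt a 6 && Nat.blt b 6)
  | .W p a b => Nat.blt p 7 && (Nat.blt a 6 && Nat.blt b 6)
  | .D p a b => Nat.blt p 7 && (Nat.blt a 6 && Nat.blt b 6)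
  | .F p a => Nat.blt p 7 && Nat.blt a 6

/-- the atom with a given number -/
def dec (n : ℕ) : At :=
  if n < 42 then .T (n / 6) (n % 6)
  else if n < 490 then .E ((n - 42) / 64) ((n - 42) % 64)
  else if n < 492 then .T 0 0
  else if n < 744 then .B ((n / 6 - 82) / 6) ((n / 6 - 82) % 6) (n % 6)
  else if n < 996 then .X ((n / 6 - 124) / 6) ((n / 6 - 124) % 6) (n % 6)
  else if n < 1248 then .W ((n / 6 - 166) / 6) ((n / 6 - 166) % 6) (n % 6)
  else if n < 1500 then .D ((n / 6 - 208) / 6) ((n / 6 - 208) % 6) (n % 6)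
  else .F ((n - 1500) / 6) ((n - 1500) % 6)

theorem blt_iff {a b : ℕ} : Nat.blt a b = true ↔ a < b := by
  unfold Nat.blt; rw [Nat.ble_eq]; exact Iff.rfl

theorem dec_num' (A : At) : ∀ n, A.num = n → A.ok = true → dec n = A := by
  cases A <;> intro n hn h <;> simp only [At.num] at hn <;>
    simp only [At.ok, Bool.and_eq_true, blt_iff] at h <;> unfold dec <;> split_ifs <;>
    first
      | (exfalso; omega)
      | (simp only [At.T.injEq, At.E.injEq, At.B.injEq, At.X.injEq, At.W.injEq, At.D.injEq,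
          At.F.injEq]; omega)

theorem dec_num (A : At) (h : A.ok = true) : dec A.num = A := dec_num' A _ rfl h

/-- colours and slots -/
def cc (c : ℕ) : Fin 6 := ⟨c % 6, Nat.mod_lt _ (by norm_num)⟩

/-- nodes -/
def nd : ℕ → Option (Fin 6)
  | 0 => none
  | k + 1 => some (cc k)

theorem cc_val (c : Fin 6) : cc c.val = c := Fin.ext (Nat.mod_eq_of_lt c.isLt)

theorem cc_add (j d : ℕ) : cc ((j + d) % 6) = cc j + cc d := by
  apply Fin.ext
  rw [Fin.val_add]
  change (j + d) % 6 % 6 = (j % 6 + d % 6) % 6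
  omega

theorem val_lt (c : Fin 6) : c.val ∈ [0, 1, 2, 3, 4, 5] := by fin_cases c <;> decide

variable (N : Option (Fin 6) → Set (Fin 6)) (Q : Set State) (σ : State)

/-- some exact letter of the node `p` is inside `m` -/
def EE (p : Option (Fin 6)) (m : ℕ) : Prop :=
  ∃ τ ∈ Q, ∃ j, τ p j ⊆ N p ∧ ∀ c ∈ τ p j, m.testBit c.val = true

/-- meaning of the atoms -/
def sem : At → Prop
  | .T p c => cc c ∈ N (nd p)
  | .E p m => EE N Q (nd p) m
  | .B p a b => cc b ∈ N (nd p) ∧ ¬ EE N Q (nd p) (2 ^ a ||| 2 ^ b)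
  | .X p j c => cc c ∈ σ (nd p) (cc j)
  | .W p j c => cc c ∈ σ (nd p) (cc j) ∧ cc c ∉ N (nd p)
  | .D p j c => cc c ∈ N (nd p) ∧ cc c ∉ σ (nd p) (cc j)
  | .F p j => ∃ c, c ∈ σ (nd p) (cc j) ∧ c ∉ N (nd p)

/-- literals -/
abbrev Li : Type := Bool × At

/-- the literal holds -/
def holds (x : Li) : Prop := (x.1 = true ↔ sem N Q σ x.2)

open Classical in
/-- the assignment -/
def asg (n : ℕ) : Bool := decide (sem N Q σ (dec n))

/-- number of a literal -/
def lnum (x : Li) : ℕ := br x.1 (2 * x.2.num) (2 * x.2.num + 1)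

/-- mask of a clause -/
def mk (l : List Li) : ℕ :=
  @List.rec Li (fun _ => ℕ) 0 (fun x _ ih => Nat.lor (Nat.shiftLeft 1 (lnum x)) ih) l

/-- all atoms are admissible -/
def allok (l : List Li) : Bool :=
  @List.rec Li (fun _ => Bool) true (fun x _ ih => x.2.ok && ih) l

variable {N Q σ}

theorem lit_lnum {x : Li} (hx : x.2.ok = true) (h : holds N Q σ x) :
    lit (asg N Q σ) (lnum x) = true := by
  obtain ⟨b, A⟩ := x
  have hd := dec_num A hx
  cases b
  · have e : lnum (false, A) = 2 * A.num + 1 := rfl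
    rw [e]
    unfold lit
    have h1 : (2 * A.num + 1) % 2 = 1 := by omega
    have h2 : (2 * A.num + 1) / 2 = A.num := by omega
    have h3 : ¬ sem N Q σ A := fun h4 => absurd (h.2 h4) (by simp)
    have h5 : asg N Q σ A.num = false := by
      unfold asg; rw [hd]; simp [h3]
    rw [h1, h2, h5]; rfl
  · have e : lnum (true, A) = 2 * A.num := rfl
    rw [e]
    unfold lit
    have h1 : (2 * A.num) % 2 = 0 := by omega
    have h2 : (2 * A.num) / 2 = A.num := by omega
    have h3 : sem N Q σ A := h.1 rfl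
    have h5 : asg N Q σ A.num = true := by
      unfold asg; rw [hd]; simp [h3]
    rw [h1, h2, h5]; rfl

theorem sat_mk {l : List Li} (hok : allok l = true) (h : ∃ x ∈ l, holds N Q σ x) :
    Sat (asg N Q σ) (mk l) := by
  induction l with
  | nil => obtain ⟨x, hx, -⟩ := h; cases hx
  | cons y l ih =>
    have hok : (y.2.ok && allok l) = true := hok
    rw [Bool.and_eq_true] at hok
    obtain ⟨x, hx, hh⟩ := h
    have e : mk (y :: l) = (1 <<< (lnum y)) ||| mk l := rfl
    rw [e]
    rcases List.mem_cons.1 hx with h1 | h1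
    · subst h1
      refine ⟨lnum x, ?_, lit_lnum hok.1 hh⟩
      rw [Nat.testBit_or, Nat.testBit_shiftLeft]
      simp
    · obtain ⟨m, h2, h3⟩ := ih hok.2 ⟨x, h1, hh⟩
      exact ⟨m, by rw [Nat.testBit_or, h2, Bool.or_true], h3⟩

theorem sat_three (a : ℕ → Bool) : Sat a 3 := by
  cases h : a 0
  · refine ⟨1, by decide, ?_⟩
    change (bif Nat.beq (1 % 2) 0 then a (1 / 2) else !(a (1 / 2))) = true
    have e : (1 / 2 : ℕ) = 0 := rfl
    rw [e, h]; rfl
  · refine ⟨0, by decide, ?_⟩
    change (bif Nat.beq (0 % 2) 0 then a (0 / 2) else !(a (0 / 2))) = true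
    have e : (0 / 2 : ℕ) = 0 := rfl
    rw [e, h]; rfl

end Vale.Agent.P032.H913.SR
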