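import Vale.Agent.P032.H913.SrA

/-!
# P032: certificates for the finite system with seven nodes, clauses

`cls` turns a code into a list of literals one of which holds in every system (`cls_true`).
-/

set_option linter.unusedSectionVars false

noncomputable section

namespace Vale.Agent.P032.H913.SR

open Vale.Agent.P032.H89
open Vale.Agent.P032.H139.Lrat (Sat lit br br_true br_false Db check check_sound)

/-- the numbers below six -/
def r6 : List ℕ := [0, 1, 2, 3, 4, 5]

/-- a clause which always holds -/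
def triv : List Li := [(true, .T 0 0), (false, .T 0 0)]

/-- fields of codes -/
def fd (n i : ℕ) : ℕ := Nat.land (Nat.shiftRight n (5 + 6 * i)) 63

/-- positive or negative literals over the colours `c` with `q c` -/
def lits (b : Bool) (q : ℕ → Bool) (f : ℕ → At) : List Li := (r6.filter q).map fun c => (b, f c)

theorem mem_lits {b : Bool} {q : ℕ → Bool} {f : ℕ → At} {c : Fin 6} (h : q c.val = true) :
    (b, f c.val) ∈ lits b q f := by
  unfold lits
  refine List.mem_map.2 ⟨c.val, List.mem_filter.2 ⟨?_, h⟩, rfl⟩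
  exact val_lt c

/-- pairwise different and less than six -/
def dst (l : List ℕ) : Bool := l.all (fun x => Nat.blt x 6) && decide l.Nodup

/-- the literals of a code with given fields -/
def clf (k a b c d e f : ℕ) : List Li :=
  if k = 0 then (if a < 5 then [(true, .T 0 a)] else if a = 5 then [(false, .T 0 5)] else triv)
  else if k = 1 then lits false (fun _ => true) (fun c => .T (a + 1) c)
  else if k = 2 then [(true, .T (a + 1) 5)]
  else if k = 3 then [(false, .E a b), (true, .E a (b ||| 2 ^ c))]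
  else if k = 4 then (false, .E a b) :: lits true (fun d => d != c && b.testBit d) (fun d => .T a d)
  else if k = 5 then [(false, .E a b), (false, .E a (63 ^^^ b))]
  else if k = 6 then [(false, .B a b c), (true, .T a c)]
  else if k = 7 then [(false, .B a b c), (false, .E a (2 ^ b ||| 2 ^ c))]
  else if k = 8 then (if dst [b, c, d, e] = true then
      (false, .T a b) :: (false, .T a c) :: (false, .T a d) :: (false, .T a e) ::
        lits true (fun x => x != b && x != f) (fun x => .B a b x) else triv)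
  else if k = 9 then lits true (fun _ => true) (fun c => .X a b c)
  else if k = 10 then [(false, .X a b c), (false, .X a ((b + 1) % 6) c)]
  else if k = 11 then [(false, .X 0 a b), (true, .T (a + 1) b)]
  else if k = 12 then [(false, .X (a + 1) ((a + 3) % 6) b), (true, .T 0 b)]
  else if k = 13 then [(false, .X (a + 1) ((a + 2) % 6) b), (true, .T ((a + 1) % 6 + 1) b)]
  else if k = 14 then [(false, .X (a + 1) ((a + 4) % 6) b), (true, .T ((a + 5) % 6 + 1) b)]
  else if k = 15 then (false, .X a b c) :: (false, .T a c) ::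
      lits true (fun d => d != c) (fun d => .X a b d)
  else if k = 16 then [(false, .W a b c), (true, .X a b c)]
  else if k = 17 then [(false, .W a b c), (false, .T a c)]
  else if k = 18 then [(false, .D a b c), (true, .T a c)]
  else if k = 19 then [(false, .D a b c), (false, .X a b c)]
  else if k = 20 then (false, .F a b) :: lits true (fun _ => true) (fun c => .W a b c)
  else if k = 21 then (true, .E a c) :: (true, .F a b) ::
      lits true (fun d => !(c.testBit d)) (fun d => .X a b d)
  else if k = 22 then lits true (fun d => d != c) (fun d => .D a b d)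
  else if k = 23 then [(false, .X 0 b c), (false, .X (a + 1) b c)]
  else if k = 24 then [(false, .X (a + 1) b c), (false, .X ((a + 1) % 6 + 1) b c)]
  else if k = 25 then [(true, .X 0 a 5), (true, .X 0 ((a + 1) % 6) 5)]
  else triv

/-- the literals of a code -/
def cls (n : ℕ) : List Li := clf (n % 32) (fd n 0) (fd n 1) (fd n 2) (fd n 3) (fd n 4) (fd n 5)

variable {N : Option (Fin 6) → Set (Fin 6)} {Q : Set State} {σ : State}

theorem pos {A : At} (h : sem N Q σ A) : holds N Q σ (true, A) := ⟨fun _ => h, fun _ => rfl⟩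

theorem neg {A : At} (h : ¬ sem N Q σ A) : holds N Q σ (false, A) :=
  ⟨fun h1 => absurd h1 (by simp), fun h1 => absurd h1 h⟩

theorem triv_true : ∃ x ∈ triv, holds N Q σ x := by
  by_cases h : sem N Q σ (.T 0 0)
  · exact ⟨_, List.mem_cons_self, pos h⟩
  · exact ⟨_, List.mem_cons_of_mem _ List.mem_cons_self, neg h⟩

/-- two negative literals -/
theorem neg2 {A B : At} (h : sem N Q σ A → sem N Q σ B → False) :
    ∃ x ∈ [(false, A), (false, B)], holds N Q σ x := by
  by_cases h1 : sem N Q σ A
  · exact ⟨_, List.mem_cons_of_mem _ List.mem_cons_self, neg fun h2 => h h1 h2⟩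
  · exact ⟨_, List.mem_cons_self, neg h1⟩

/-- an implication -/
theorem imp {A B : At} (h : sem N Q σ A → sem N Q σ B) :
    ∃ x ∈ [(false, A), (true, B)], holds N Q σ x := by
  by_cases h1 : sem N Q σ A
  · exact ⟨_, List.mem_cons_of_mem _ List.mem_cons_self, pos (h h1)⟩
  · exact ⟨_, List.mem_cons_self, neg h1⟩

/-- one more negative literal -/
theorem consn {A : At} {l : List Li} (h : sem N Q σ A → ∃ x ∈ l, holds N Q σ x) :
    ∃ x ∈ (false, A) :: l, holds N Q σ x := by
  by_cases h1 : sem N Q σ A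
  · obtain ⟨x, h2, h3⟩ := h h1
    exact ⟨x, List.mem_cons_of_mem _ h2, h3⟩
  · exact ⟨_, List.mem_cons_self, neg h1⟩

/-- one more positive literal -/
theorem consp {A : At} {l : List Li} (h : ¬ sem N Q σ A → ∃ x ∈ l, holds N Q σ x) :
    ∃ x ∈ (true, A) :: l, holds N Q σ x := by
  by_cases h1 : sem N Q σ A
  · exact ⟨_, List.mem_cons_self, pos h1⟩
  · obtain ⟨x, h2, h3⟩ := h h1
    exact ⟨x, List.mem_cons_of_mem _ h2, h3⟩

theorem ex_lits {b : Bool} {q : ℕ → Bool} {f : ℕ → At} {c : Fin 6} (h : q c.val = true)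
    (h2 : holds N Q σ (b, f c.val)) : ∃ x ∈ lits b q f, holds N Q σ x := ⟨_, mem_lits h, h2⟩

theorem cc5 : cc 5 = 5 := rfl
theorem cc1 : cc 1 = 1 := rfl

/-- an exact letter has at least two colours -/
theorem exact_two {l₀ : Fin 6} (h : SysR 5 N Q l₀) {τ : State} (hτ : τ ∈ Q) {p : Option (Fin 6)}
    {j : Fin 6} (hs : τ p j ⊆ N p) (c : Fin 6) : ∃ d ∈ τ p j, d ≠ c := by
  obtain ⟨d, hd⟩ := h.ne τ hτ p j
  by_cases h1 : d = c
  · obtain ⟨e, he, h2⟩ := h.two τ hτ p j d hd (hs hd)
    exact ⟨e, he, by rw [← h1]; exact h2⟩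
  · exact ⟨d, hd, h1⟩

theorem k0 {l₀ : Fin 6} (h : SysR 5 N Q l₀) (a : ℕ) :
    ∃ x ∈ (if a < 5 then [(true, .T 0 a)] else if a = 5 then [(false, .T 0 5)] else triv : List Li),
      holds N Q σ x := by
  split_ifs with h1 h2
  · refine ⟨_, List.mem_cons_self, pos ?_⟩
    change cc a ∈ N none
    rw [h.nz]
    intro h3
    have h3 : cc a = 5 := h3
    have := congrArg Fin.val h3
    change a % 6 = 5 at this
    omega
  · refine ⟨_, List.mem_cons_self, neg ?_⟩
    change cc 5 ∉ N none
    rw [h.nz, cc5]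
    intro h3
    exact h3 rfl
  · exact triv_true

theorem k3 (p : ℕ) (m c : ℕ) : ∃ x ∈ [(false, .E p m), (true, .E p (m ||| 2 ^ c))],
    holds N Q σ x := by
  refine imp fun h => ?_
  obtain ⟨τ, hτ, j, h1, h2⟩ := h
  exact ⟨τ, hτ, j, h1, fun d hd => by rw [Nat.testBit_or, h2 d hd, Bool.true_or]⟩

theorem k4 {l₀ : Fin 6} (h : SysR 5 N Q l₀) (p m c : ℕ) :
    ∃ x ∈ (false, At.E p m) :: lits true (fun d => d != c && m.testBit d) (fun d => .T p d),
      holds N Q σ x := by
  refine consn fun h0 => ?_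
  obtain ⟨τ, hτ, j, h1, h2⟩ := h0
  obtain ⟨d, hd, hne⟩ := exact_two h hτ h1 (cc c)
  refine ex_lits (c := d) ?_ (pos ?_)
  · have : d.val ≠ c := by
      intro e
      apply hne
      rw [← e, cc_val]
    simp [this, h2 d hd]
  · change cc d.val ∈ N (nd p)
    rw [cc_val]
    exact h1 hd

theorem k5 {l₀ : Fin 6} (h : SysR 5 N Q l₀) (p m : ℕ) :
    ∃ x ∈ [(false, .E p m), (false, .E p (63 ^^^ m))], holds N Q σ x := by
  refine neg2 fun h1 h2 => ?_
  obtain ⟨τ, hτ, j, h3, h4⟩ := h1
  obtain ⟨τ', hτ', j', h5, h6⟩ := h2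
  refine h.biex τ hτ τ' hτ' (nd p) j j' h3 h5 ?_
  rw [Set.disjoint_left]
  intro c hc hc'
  have e1 := h4 c hc
  have e2 := h6 c hc'
  rw [Nat.testBit_xor, e1] at e2
  have e3 : (63 : ℕ).testBit c.val = true := by fin_cases c <;> decide
  rw [e3] at e2
  simp at e2

theorem k8 {l₀ : Fin 6} (h : SysR 5 N Q l₀) (p a b1 b2 b3 c0 : ℕ) (hd : dst [a, b1, b2, b3] = true) :
    ∃ x ∈ (false, At.T p a) :: (false, At.T p b1) :: (false, At.T p b2) :: (false, At.T p b3) ::
      lits true (fun d => d != a && d != c0) (fun d => .B p a d), holds N Q σ x := by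
  refine consn fun ha => consn fun h1 => consn fun h2 => consn fun h3 => ?_
  unfold dst at hd
  rw [Bool.and_eq_true] at hd
  obtain ⟨hlt, hnd⟩ := hd
  have hnd := of_decide_eq_true hnd
  simp only [List.all_cons, List.all_nil, Bool.and_true, Bool.and_eq_true, blt_iff] at hlt
  simp only [List.nodup_cons, List.mem_cons, List.not_mem_nil, or_false, not_or] at hnd
  have inj : ∀ {x y : ℕ}, x < 6 → y < 6 → x ≠ y → cc x ≠ cc y := by
    intro x y hx hy hxy e
    have := congrArg Fin.val e
    change x % 6 = y % 6 at this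
    omega
  have hcard : 4 ≤ (N (nd p)).ncard := by
    have hsub : ({cc a, cc b1, cc b2, cc b3} : Set (Fin 6)) ⊆ N (nd p) := by
      intro x hx
      rcases hx with rfl | rfl | rfl | rfl
      · exact ha
      · exact h1
      · exact h2
      · exact h3
    have hc4 : ({cc a, cc b1, cc b2, cc b3} : Set (Fin 6)).ncard = 4 := by
      have hfin : ({cc a, cc b1, cc b2, cc b3} : Set (Fin 6)) =
          (({cc a, cc b1, cc b2, cc b3} : Finset (Fin 6)) : Set (Fin 6)) := by simp
      rw [hfin, Set.ncard_coe_finset]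
      have q1 := inj hlt.1 hlt.2.1 hnd.1.1
      have q2 := inj hlt.1 hlt.2.2.1 hnd.1.2.1
      have q3 := inj hlt.1 hlt.2.2.2 hnd.1.2.2
      have q4 := inj hlt.2.1 hlt.2.2.1 hnd.2.1.1
      have q5 := inj hlt.2.1 hlt.2.2.2 hnd.2.1.2
      have q6 := inj hlt.2.2.1 hlt.2.2.2 hnd.2.2.1
      rw [Finset.card_insert_of_notMem, Finset.card_insert_of_notMem, Finset.card_insert_of_notMem,
        Finset.card_singleton]
      · simpa using q6
      · simp only [Finset.mem_insert, Finset.mem_singleton, not_or]; exact ⟨q4, q5⟩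
      · simp only [Finset.mem_insert, Finset.mem_singleton, not_or]; exact ⟨q1, q2, q3⟩
    rw [← hc4]
    exact Set.ncard_le_ncard hsub (Set.toFinite _)
  obtain ⟨d, e, hdN, heN, hda, hea, hde, hno⟩ := h.deg (nd p) hcard (cc a) ha
  have key : ∀ x : Fin 6, x ∈ N (nd p) → x ≠ cc a → x.val ≠ c0 →
      (∀ τ ∈ Q, ∀ j, τ (nd p) j ≠ {cc a, x}) →
      ∃ y ∈ lits true (fun d => d != a && d != c0) (fun d => At.B p a d), holds N Q σ y := by
    intro x hxN hxa hx0 hx
    refine ex_lits (c := x) ?_ (pos ?_)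
    · have : x.val ≠ a := by
        intro e1
        apply hxa
        rw [← e1, cc_val]
      simp [this, hx0]
    · change cc x.val ∈ N (nd p) ∧ ¬ EE N Q (nd p) (2 ^ a ||| 2 ^ x.val)
      rw [cc_val]
      refine ⟨hxN, ?_⟩
      rintro ⟨τ, hτ, j, hs, hb⟩
      have hb' : ∀ c ∈ τ (nd p) j, c = cc a ∨ c = x := by
        intro c hc
        have := hb c hc
        rw [Nat.testBit_or, Bool.or_eq_true, Nat.testBit_two_pow, Nat.testBit_two_pow] at this
        rcases this with h4 | h4
        · left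
          have h4 : a = c.val := by simpa using h4
          rw [h4, cc_val]
        · right
          have h4 : x.val = c.val := by simpa using h4
          exact Fin.ext h4.symm
      refine hx τ hτ j (Set.Subset.antisymm (fun c hc => hb' c hc) ?_)
      intro c hc
      rcases hc with rfl | hc
      · obtain ⟨y, hy, hne⟩ := exact_two h hτ hs x
        rcases hb' y hy with h5 | h5
        · rw [← h5]; exact hy
        · exact absurd h5 hne
      · have hc : c = x := hc
        subst hc
        obtain ⟨y, hy, hne⟩ := exact_two h hτ hs (cc a)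
        rcases hb' y hy with h5 | h5
        · exact absurd h5 hne
        · rw [← h5]; exact hy
  by_cases hd0 : d.val = c0
  · refine key e heN hea (fun h4 => hde (Fin.ext (hd0.trans h4.symm))) fun τ hτ j => (hno τ hτ j).2
  · exact key d hdN hda hd0 fun τ hτ j => (hno τ hτ j).1

theorem ite_ex {c : Prop} [Decidable c] {A B : List Li} (h1 : c → ∃ x ∈ A, holds N Q σ x)
    (h2 : ∃ x ∈ B, holds N Q σ x) : ∃ x ∈ (if c then A else B), holds N Q σ x := by
  split_ifs with h
  · exact h1 h
  · exact h2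

/-- every code gives a clause which holds -/
theorem clf_true (h : SysR 5 N Q 0) (hσ : σ ∈ Q) (k a b c d e f : ℕ) :
    ∃ x ∈ clf k a b c d e f, holds N Q σ x := by
  unfold clf
  refine ite_ex (fun _ => k0 h a) ?_
  refine ite_ex (fun _ => ?_) ?_
  · obtain ⟨x, hx⟩ := h.nv' (cc a)
    refine ex_lits (c := x) rfl (neg ?_)
    change cc x.val ∉ N (some (cc a))
    rw [cc_val]; exact hx
  refine ite_ex (fun _ => ?_) ?_
  · exact ⟨_, List.mem_cons_self, pos (h.nv (cc a))⟩
  refine ite_ex (fun _ => ?_) ?_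
  · exact k3 a b c
  refine ite_ex (fun _ => ?_) ?_
  · exact k4 h a b c
  refine ite_ex (fun _ => ?_) ?_
  · exact k5 h a b
  refine ite_ex (fun _ => ?_) ?_
  · exact imp fun h1 => h1.1
  refine ite_ex (fun _ => ?_) ?_
  · exact neg2 fun h1 h2 => h1.2 h2
  refine ite_ex (fun _ => ite_ex (fun hd => k8 h a b c d e f hd) triv_true) ?_
  refine ite_ex (fun _ => ?_) ?_
  · obtain ⟨x, hx⟩ := h.ne σ hσ (nd a) (cc b)
    refine ex_lits (c := x) rfl (pos ?_)
    change cc x.val ∈ σ (nd a) (cc b)
    rw [cc_val]; exact hx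
  refine ite_ex (fun _ => ?_) ?_
  · refine neg2 fun h1 h2 => ?_
    have h2 : cc c ∈ σ (nd a) (cc ((b + 1) % 6)) := h2
    rw [cc_add] at h2
    exact Set.disjoint_left.1 (h.hex σ hσ (nd a) (cc b)) h1 h2
  refine ite_ex (fun _ => ?_) ?_
  · exact imp fun h1 => h.inz σ hσ (cc a) h1
  refine ite_ex (fun _ => ?_) ?_
  · refine imp fun h1 => ?_
    have h1 : cc b ∈ σ (some (cc a)) (cc ((a + 3) % 6)) := h1
    rw [cc_add] at h1
    exact h.inv σ hσ (cc a) h1
  refine ite_ex (fun _ => ?_) ?_
  · refine imp fun h1 => ?_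
    have h1 : cc b ∈ σ (some (cc a)) (cc ((a + 2) % 6)) := h1
    rw [cc_add] at h1
    change cc b ∈ N (some (cc ((a + 1) % 6)))
    rw [cc_add]
    exact h.inr σ hσ (cc a) h1
  refine ite_ex (fun _ => ?_) ?_
  · refine imp fun h1 => ?_
    have h1 : cc b ∈ σ (some (cc a)) (cc ((a + 4) % 6)) := h1
    rw [cc_add] at h1
    change cc b ∈ N (some (cc ((a + 5) % 6)))
    rw [cc_add]
    have e1 : cc a + cc 4 = cc a - 2 := by generalize cc a = x; revert x; decide
    have e2 : cc a + cc 5 = cc a - 1 := by generalize cc a = x; revert x; decide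
    rw [e1] at h1
    rw [e2]
    exact h.inl σ hσ (cc a) h1
  refine ite_ex (fun _ => ?_) ?_
  · refine consn fun h1 => consn fun h2 => ?_
    obtain ⟨x, hx, hne⟩ := h.two σ hσ (nd a) (cc b) (cc c) h1 h2
    refine ex_lits (c := x) ?_ (pos ?_)
    · have : x.val ≠ c := by
        intro e1
        apply hne
        rw [← e1, cc_val]
      simp [this]
    · change cc x.val ∈ σ (nd a) (cc b)
      rw [cc_val]; exact hx
  refine ite_ex (fun _ => ?_) ?_
  · exact imp fun h1 => h1.1
  refine ite_ex (fun _ => ?_) ?_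
  · exact neg2 fun h1 h2 => h1.2 h2
  refine ite_ex (fun _ => ?_) ?_
  · exact imp fun h1 => h1.1
  refine ite_ex (fun _ => ?_) ?_
  · exact neg2 fun h1 h2 => h1.2 h2
  refine ite_ex (fun _ => ?_) ?_
  · refine consn fun h1 => ?_
    obtain ⟨x, h2, h3⟩ := h1
    refine ex_lits (c := x) rfl (pos ?_)
    change cc x.val ∈ σ (nd a) (cc b) ∧ cc x.val ∉ N (nd a)
    rw [cc_val]; exact ⟨h2, h3⟩
  refine ite_ex (fun _ => ?_) ?_
  · refine consp fun h1 => consp fun h2 => ?_
    by_contra hcon
    apply h1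
    refine ⟨σ, hσ, cc b, ?_, ?_⟩
    · intro x hx
      by_contra h3
      exact h2 ⟨x, hx, h3⟩
    · intro x hx
      by_contra h3
      apply hcon
      refine ex_lits (c := x) ?_ (pos ?_)
      · simpa using h3
      · change cc x.val ∈ σ (nd a) (cc b)
        rw [cc_val]; exact hx
  refine ite_ex (fun _ => ?_) ?_
  · obtain ⟨x, h1, h2, h3⟩ := h.gap σ hσ (nd a) (cc b) (cc c)
    refine ex_lits (c := x) ?_ (pos ?_)
    · have : x.val ≠ c := by
        intro e1
        apply h3
        rw [← e1, cc_val]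
      simp [this]
    · change cc x.val ∈ N (nd a) ∧ cc x.val ∉ σ (nd a) (cc b)
      rw [cc_val]; exact ⟨h1, h2⟩
  refine ite_ex (fun _ => ?_) ?_
  · exact neg2 fun h1 h2 => Set.disjoint_left.1 (h.rz σ hσ (cc a) (cc b)) h1 h2
  refine ite_ex (fun _ => ?_) ?_
  · refine neg2 fun h1 h2 => ?_
    have h2 : cc c ∈ σ (some (cc ((a + 1) % 6))) (cc b) := h2
    rw [cc_add] at h2
    exact Set.disjoint_left.1 (h.rv σ hσ (cc a) (cc b)) h1 h2
  refine ite_ex (fun _ => ?_) ?_
  · by_cases h1 : sem N Q σ (.X 0 a 5)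
    · exact ⟨_, List.mem_cons_self, pos h1⟩
    · refine ⟨_, List.mem_cons_of_mem _ List.mem_cons_self, pos ?_⟩
      have h1 : (5 : Fin 6) ∉ σ none (cc a) := h1
      change cc 5 ∈ σ none (cc ((a + 1) % 6))
      rw [cc_add]
      by_contra h2
      exact h1 ((h.alt σ hσ (cc a)).2 h2)
  exact triv_true

/-- **every code gives a clause which holds** -/
theorem cls_true (h : SysR 5 N Q 0) (hσ : σ ∈ Q) (n : ℕ) : ∃ x ∈ cls n, holds N Q σ x :=
  clf_true h hσ _ _ _ _ _ _ _

end Vale.Agent.P032.H913.SR
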