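import Vale.Agent.P032.H913.SrB

/-!
# P032: certificates for the finite system with seven nodes, images and levels

A list of facts is `Bad` if it holds in no system.  `bad1` : one demand, one state.  `bad2` : from
images of bad lists under permutations of the colours, the half turn and the reflection.
-/

set_option linter.unusedSectionVars false

noncomputable section

namespace Vale.Agent.P032.H913.SR

open Vale.Agent.P032.H89
open Vale.Agent.P032.H139.Lrat (Sat lit br br_true br_false Db build check check_sound)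

variable {N : Option (Fin 6) → Set (Fin 6)} {Q : Set State} {σ : State}

/-! ### lists of masks -/

/-- the mask of a list of literals, the trivial clause if an atom is not admissible -/
def msk (l : List Li) : ℕ := br (allok l) (mk l) 3

theorem sat_msk {l : List Li} (h : ∃ x ∈ l, holds N Q σ x) : Sat (asg N Q σ) (msk l) := by
  unfold msk
  cases h1 : allok l
  · exact sat_three _
  · exact sat_mk h1 h

/-- unit clauses followed by `m` -/
def ul (l : List Li) (m : List ℕ) : List ℕ :=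
  @List.rec Li (fun _ => List ℕ) m (fun x _ ih => msk [x] :: ih) l

theorem ul_sat {l : List Li} {m : List ℕ} (hl : ∀ x ∈ l, holds N Q σ x)
    (hm : ∀ C ∈ m, Sat (asg N Q σ) C) : ∀ C ∈ ul l m, Sat (asg N Q σ) C := by
  induction l with
  | nil => exact hm
  | cons x l ih =>
    intro C hC
    have hC : C ∈ msk [x] :: ul l m := hC
    rcases List.mem_cons.1 hC with h | h
    · rw [h]; exact sat_msk ⟨x, List.mem_cons_self, hl x List.mem_cons_self⟩
    · exact ih (fun y hy => hl y (List.mem_cons_of_mem _ hy)) C h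

/-- clauses of codes, `f` gives the literals, followed by `m` -/
def cl (f : ℕ → List Li) (cs : List ℕ) (m : List ℕ) : List ℕ :=
  @List.rec ℕ (fun _ => List ℕ) m (fun x _ ih => msk (f x) :: ih) cs

theorem cl_sat {f : ℕ → List Li} {cs m : List ℕ} (hf : ∀ n, ∃ x ∈ f n, holds N Q σ x)
    (hm : ∀ C ∈ m, Sat (asg N Q σ) C) : ∀ C ∈ cl f cs m, Sat (asg N Q σ) C := by
  induction cs with
  | nil => exact hm
  | cons x l ih =>
    intro C hC
    have hC : C ∈ msk (f x) :: cl f l m := hC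
    rcases List.mem_cons.1 hC with h | h
    · rw [h]; exact sat_msk (hf x)
    · exact ih C h

/-- a mask from the digits of a code in base `2 ^ 12` (digits are literals plus one) -/
def dmk (fuel : ℕ) : ℕ → ℕ := @Nat.rec (fun _ => ℕ → ℕ) (fun _ => 0)
  (fun _ ih x => br (Nat.beq x 0) 0
    (Nat.lor (Nat.shiftLeft 1 (Nat.sub (Nat.land x 4095) 1)) (ih (Nat.shiftRight x 12)))) fuel

/-- masks of a list of codes -/
def dml (fuel : ℕ) (cs : List ℕ) : List ℕ :=
  @List.rec ℕ (fun _ => List ℕ) [] (fun x _ ih => dmk fuel x :: ih) cs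

/-- concatenation -/
def app (l m : List ℕ) : List ℕ := @List.rec ℕ (fun _ => List ℕ) m (fun x _ ih => x :: ih) l

/-! ### facts -/

/-- facts: `(0, p, c)` colour in the palette, `(1, p, c)` colour not in the palette, `(2, p, m)` no
exact letter inside `m` -/
abbrev Fact : Type := ℕ × ℕ × ℕ

/-- literal of a fact -/
def fli (x : Fact) : Li :=
  if x.1 = 0 then (true, .T x.2.1 x.2.2) else if x.1 = 1 then (false, .T x.2.1 x.2.2)
  else (false, .E x.2.1 x.2.2)

/-- the fact holds -/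
def FH (N : Option (Fin 6) → Set (Fin 6)) (Q : Set State) (x : Fact) : Prop :=
  if x.1 = 0 then cc x.2.2 ∈ N (nd x.2.1) else if x.1 = 1 then cc x.2.2 ∉ N (nd x.2.1)
  else ¬ EE N Q (nd x.2.1) x.2.2

theorem holds_fli {x : Fact} (h : FH N Q x) : holds N Q σ (fli x) := by
  unfold FH at h
  unfold fli
  split_ifs at h ⊢
  · exact pos h
  · exact neg h
  · exact neg h

/-- the opposite literal -/
def nli (x : Li) : Li := (!x.1, x.2)

theorem holds_nli {x : Fact} (h : ¬ FH N Q x) : holds N Q σ (nli (fli x)) := by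
  unfold FH at h
  unfold fli
  split_ifs at h ⊢
  · exact neg h
  · exact pos (not_not.1 h)
  · exact pos (not_not.1 h)

/-- lists of facts which hold in no system -/
def Bad (P : List Fact) : Prop :=
  ∀ (N : Option (Fin 6) → Set (Fin 6)) (Q : Set State), SysR 5 N Q 0 → ¬ ∀ x ∈ P, FH N Q x

/-! ### one demand -/

/-- type of a state -/
def tyl (t : ℕ) : Li := (Nat.beq t 0, .X 0 0 5)

/-- the demand -/
def deml (k s a : ℕ) : Li := (false, .X (k + 1) s a)

/-- admissible demands -/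
def demok (k s a : ℕ) : Bool :=
  Nat.blt a 5 && ((Nat.beq s ((k + 2) % 6) && (!(Nat.beq ((k + 1) % 6) 0) && !(Nat.beq ((k + 1) % 6) 3)))
    || (Nat.beq s ((k + 4) % 6) && (!(Nat.beq ((k + 5) % 6) 0) && !(Nat.beq ((k + 5) % 6) 3))))

theorem cc_ne {x : ℕ} {y : Fin 6} (h : x % 6 ≠ y.val) : cc x ≠ y := fun e => h (congrArg Fin.val e)

theorem ex_state (h : SysR 5 N Q 0) {k s a t : ℕ} (hd : demok k s a = true) :
    ∃ τ ∈ Q, holds N Q τ (tyl t) ∧ holds N Q τ (deml k s a) := by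
  unfold demok at hd
  rw [Bool.and_eq_true, Bool.or_eq_true, Bool.and_eq_true, Bool.and_eq_true, Bool.and_eq_true,
    Bool.and_eq_true, blt_iff] at hd
  obtain ⟨ha, hd⟩ := hd
  have ha5 : cc a ≠ 5 := cc_ne (by change a % 6 ≠ 5; omega)
  have fin : ∀ τ : State, (5 ∈ τ none 0 ↔ t = 0) → cc a ∉ τ (some (cc k)) (cc s) →
      holds N Q τ (tyl t) ∧ holds N Q τ (deml k s a) := by
    intro τ h1 h2
    refine ⟨?_, neg h2⟩
    have h3 : holds N Q τ (Nat.beq t 0, .X 0 0 5) := by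
      cases h4 : Nat.beq t 0
      · refine neg fun h5 => ?_
        have := h1.1 h5
        rw [this] at h4; cases h4
      · exact pos (h1.2 (Nat.eq_of_beq_eq_true h4))
    exact h3
  rcases hd with ⟨h1, h2, h3⟩ | ⟨h1, h2, h3⟩
  · have e1 := Nat.eq_of_beq_eq_true h1
    have h2 : (k + 1) % 6 ≠ 0 := by
      intro e; rw [e] at h2; cases h2
    have h3 : (k + 1) % 6 ≠ 3 := by
      intro e; rw [e] at h3; cases h3
    obtain ⟨τ, hτ, h4, h5⟩ := h.m3r (cc a) ha5 (cc k)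
      (by
        have : cc k + 1 = cc ((k + 1) % 6) := (cc_add k 1).symm
        rw [this]
        exact cc_ne (by change (k + 1) % 6 % 6 ≠ 0; omega))
      (by
        have : cc k + 1 = cc ((k + 1) % 6) := (cc_add k 1).symm
        rw [this]
        exact cc_ne (by change (k + 1) % 6 % 6 ≠ 3; omega)) (t = 0)
    refine ⟨τ, hτ, fin τ h4 ?_⟩
    rw [e1, cc_add]
    exact h5
  · have e1 := Nat.eq_of_beq_eq_true h1
    have h2 : (k + 5) % 6 ≠ 0 := by
      intro e; rw [e] at h2; cases h2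
    have h3 : (k + 5) % 6 ≠ 3 := by
      intro e; rw [e] at h3; cases h3
    have e2 : cc k - 1 = cc ((k + 5) % 6) := by
      rw [cc_add]; generalize cc k = x; revert x; decide
    have e3 : cc k - 2 = cc ((k + 4) % 6) := by
      rw [cc_add]; generalize cc k = x; revert x; decide
    obtain ⟨τ, hτ, h4, h5⟩ := h.m3l (cc a) ha5 (cc k)
      (by rw [e2]; exact cc_ne (by change (k + 5) % 6 % 6 ≠ 0; omega))
      (by rw [e2]; exact cc_ne (by change (k + 5) % 6 % 6 ≠ 3; omega)) (t = 0)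
    refine ⟨τ, hτ, fin τ h4 ?_⟩
    rw [e1, ← e3]
    exact h5

/-- **one demand, one state** -/
theorem bad1 {P : List Fact} {k s a t : ℕ} (hd : demok k s a = true) {B fuel : ℕ} {tr : Db}
    {cs hs : List ℕ}
    (h : check B fuel tr (cl cls cs (ul (tyl t :: deml k s a :: P.map fli) [])) hs = true) :
    Bad P := by
  intro N Q hS hP
  obtain ⟨τ, hτ, h1, h2⟩ := ex_state hS (t := t) hd
  refine check_sound h (asg N Q τ) (cl_sat (fun n => cls_true hS hτ n) (ul_sat ?_ ?_))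
  · intro x hx
    rcases List.mem_cons.1 hx with rfl | hx
    · exact h1
    rcases List.mem_cons.1 hx with rfl | hx
    · exact h2
    obtain ⟨y, hy, rfl⟩ := List.mem_map.1 hx
    exact holds_fli (hP y hy)
  · intro C hC; cases hC

/-! ### transformed systems -/

/-- palettes of the transformed system -/
def pN (δ π : Fin 6 → Fin 6) (N : Option (Fin 6) → Set (Fin 6)) : Option (Fin 6) → Set (Fin 6) :=
  fun p => {c | π c ∈ N (p.map δ)}

/-- the transformed state -/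
def pS (δ π : Fin 6 → Fin 6) (τ : State) : State := fun p j => {c | π c ∈ τ (p.map δ) (δ j)}

/-- the states of the transformed system -/
def pQ (δ π : Fin 6 → Fin 6) (Q : Set State) : Set State := pS δ π '' Q

theorem EE_pull {δ π : Fin 6 → Fin 6} (hδ : Function.Surjective δ) (hπ : Function.Surjective π)
    {p : Option (Fin 6)} {m m' : ℕ} (hm : ∀ c : Fin 6, m'.testBit c.val = m.testBit (π c).val) :
    EE (pN δ π N) (pQ δ π Q) p m' ↔ EE N Q (p.map δ) m := by
  constructor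
  · rintro ⟨τ', ⟨τ, hτ, rfl⟩, j, h1, h2⟩
    refine ⟨τ, hτ, δ j, ?_, ?_⟩
    · intro c hc
      obtain ⟨d, rfl⟩ := hπ c
      exact h1 (show π d ∈ τ (p.map δ) (δ j) from hc)
    · intro c hc
      obtain ⟨d, rfl⟩ := hπ c
      rw [← hm]
      exact h2 d (show π d ∈ τ (p.map δ) (δ j) from hc)
  · rintro ⟨τ, hτ, j, h1, h2⟩
    obtain ⟨j', rfl⟩ := hδ j
    refine ⟨pS δ π τ, ⟨τ, hτ, rfl⟩, j', ?_, ?_⟩
    · intro c hc
      exact h1 hc
    · intro c hc
      rw [hm]
      exact h2 _ hc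

theorem ncard_pull {π : Fin 6 → Fin 6} (hπ : Function.Bijective π) (S : Set (Fin 6)) :
    {c | π c ∈ S}.ncard = S.ncard :=
  Set.ncard_preimage_of_injective_subset_range hπ.injective (fun x _ => hπ.surjective x)

/-- colours -/
theorem pullC {π : Fin 6 → Fin 6} (hπ : Function.Bijective π) {m m' : Fin 6}
    (hm : ∀ c, π c = m ↔ c = m') {l₀ : Fin 6} (h : SysR m N Q l₀) :
    SysR m' (pN id π N) (pQ id π Q) l₀ := by
  have oid : ∀ p : Option (Fin 6), p.map id = p := fun p => by cases p <;> rfl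
  have hs := hπ.surjective
  refine
    { nz := ?_, nv := ?_, nv' := ?_, ne := ?_, hex := ?_, inz := ?_, inv := ?_, inr := ?_
      inl := ?_, two := ?_, gap := ?_, rz := ?_, rv := ?_, alt := ?_, biex := ?_, deg := ?_
      m3r := ?_, m3l := ?_ }
  · ext c
    change π c ∈ N none ↔ c ∈ ({m'} : Set (Fin 6))ᶜ
    rw [h.nz, Set.mem_compl_iff, Set.mem_compl_iff, Set.mem_singleton_iff, Set.mem_singleton_iff, hm]
  · intro k
    change π m' ∈ N (some k)
    rw [(hm m').2 rfl]; exact h.nv k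
  · intro k
    obtain ⟨c, hc⟩ := h.nv' k
    obtain ⟨d, rfl⟩ := hs c
    exact ⟨d, hc⟩
  · rintro _ ⟨τ, hτ, rfl⟩ p j
    obtain ⟨c, hc⟩ := h.ne τ hτ (p.map id) j
    obtain ⟨d, rfl⟩ := hs c
    exact ⟨d, hc⟩
  · rintro _ ⟨τ, hτ, rfl⟩ p j
    rw [Set.disjoint_left]
    intro c h1 h2
    exact Set.disjoint_left.1 (h.hex τ hτ (p.map id) j) h1 h2
  · rintro _ ⟨τ, hτ, rfl⟩ k c hc
    exact h.inz τ hτ k hc
  · rintro _ ⟨τ, hτ, rfl⟩ k c hc
    exact h.inv τ hτ k hc
  · rintro _ ⟨τ, hτ, rfl⟩ k c hc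
    exact h.inr τ hτ k hc
  · rintro _ ⟨τ, hτ, rfl⟩ k c hc
    exact h.inl τ hτ k hc
  · rintro _ ⟨τ, hτ, rfl⟩ p j c hc hN
    obtain ⟨d, hd, hne⟩ := h.two τ hτ (p.map id) j (π c) hc hN
    obtain ⟨e, rfl⟩ := hs d
    exact ⟨e, hd, fun he => hne (by rw [he])⟩
  · rintro _ ⟨τ, hτ, rfl⟩ p j c
    obtain ⟨d, hd, h1, hne⟩ := h.gap τ hτ (p.map id) j (π c)
    obtain ⟨e, rfl⟩ := hs d
    exact ⟨e, hd, h1, fun he => hne (by rw [he])⟩
  · rintro _ ⟨τ, hτ, rfl⟩ k j
    rw [Set.disjoint_left]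
    intro c h1 h2
    exact Set.disjoint_left.1 (h.rz τ hτ k j) h1 h2
  · rintro _ ⟨τ, hτ, rfl⟩ k j
    rw [Set.disjoint_left]
    intro c h1 h2
    exact Set.disjoint_left.1 (h.rv τ hτ k j) h1 h2
  · rintro _ ⟨τ, hτ, rfl⟩ j
    change π m' ∈ τ none j ↔ π m' ∉ τ none (j + 1)
    rw [(hm m').2 rfl]
    exact h.alt τ hτ j
  · rintro _ ⟨τ, hτ, rfl⟩ _ ⟨τ', hτ', rfl⟩ p j j' h1 h2 h3
    refine h.biex τ hτ τ' hτ' (p.map id) j j' ?_ ?_ ?_
    · intro c hc
      obtain ⟨d, rfl⟩ := hs c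
      exact h1 hc
    · intro c hc
      obtain ⟨d, rfl⟩ := hs c
      exact h2 hc
    · rw [Set.disjoint_left]
      intro c hc hc'
      obtain ⟨d, rfl⟩ := hs c
      exact Set.disjoint_left.1 h3 hc hc'
  · intro p hp a ha
    have hp' : 4 ≤ (N (p.map id)).ncard := by
      rw [← ncard_pull hπ]; exact hp
    obtain ⟨d, e, h1, h2, h3, h4, h5, h6⟩ := h.deg (p.map id) hp' (π a) ha
    obtain ⟨d, rfl⟩ := hs d
    obtain ⟨e, rfl⟩ := hs e
    have key : ∀ (x : Fin 6) (S : Set (Fin 6)), {c | π c ∈ S} = {a, x} → S = {π a, π x} := by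
      intro x S hS
      ext y
      obtain ⟨y, rfl⟩ := hs y
      have h7 : y ∈ {c | π c ∈ S} ↔ y ∈ ({a, x} : Set (Fin 6)) := by rw [hS]
      change π y ∈ S ↔ _ at h7
      rw [h7]
      simp only [Set.mem_insert_iff, Set.mem_singleton_iff, hπ.injective.eq_iff]
    refine ⟨d, e, h1, h2, fun he => h3 (by rw [he]), fun he => h4 (by rw [he]),
      fun he => h5 (by rw [he]), ?_⟩
    rintro _ ⟨τ, hτ, rfl⟩ j
    exact ⟨fun he => (h6 τ hτ j).1 (key d _ he), fun he => (h6 τ hτ j).2 (key e _ he)⟩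
  · intro a ha k hk hk' t
    obtain ⟨τ, hτ, h1, h2⟩ := h.m3r (π a) (fun he => ha ((hm a).1 he)) k hk hk' t
    refine ⟨_, ⟨τ, hτ, rfl⟩, ?_, h2⟩
    change π m' ∈ τ none 0 ↔ t
    rw [(hm m').2 rfl]; exact h1
  · intro a ha k hk hk' t
    obtain ⟨τ, hτ, h1, h2⟩ := h.m3l (π a) (fun he => ha ((hm a).1 he)) k hk hk' t
    refine ⟨_, ⟨τ, hτ, rfl⟩, ?_, h2⟩
    change π m' ∈ τ none 0 ↔ t
    rw [(hm m').2 rfl]; exact h1

/-- the half turn -/
def d3 (j : Fin 6) : Fin 6 := j + 3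

/-- the reflection -/
def dn (j : Fin 6) : Fin 6 := -j

theorem pullR {m : Fin 6} (h : SysR m N Q 0) : SysR m (pN d3 id N) (pQ d3 id Q) 0 := by
  have a3 : ∀ τ ∈ Q, ∀ j, (m ∈ τ none (j + 3) ↔ ¬ m ∈ τ none j) := by
    intro τ hτ j
    have e1 := h.alt τ hτ j
    have e2 := h.alt τ hτ (j + 1)
    have e3 := h.alt τ hτ (j + 1 + 1)
    have e4 : ∀ j : Fin 6, j + 1 + 1 + 1 = j + 3 := by decide
    rw [e4 j] at e3
    tauto
  refine
    { nz := h.nz, nv := fun k => h.nv _, nv' := fun k => h.nv' _, ne := ?_, hex := ?_, inz := ?_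
      inv := ?_, inr := ?_
      inl := ?_, two := ?_, gap := ?_, rz := ?_, rv := ?_, alt := ?_, biex := ?_, deg := ?_
      m3r := ?_, m3l := ?_ }
  · rintro _ ⟨τ, hτ, rfl⟩ p j
    exact h.ne τ hτ _ _
  · rintro _ ⟨τ, hτ, rfl⟩ p j
    have e : d3 (j + 1) = d3 j + 1 := by revert j; decide
    have := h.hex τ hτ (p.map d3) (d3 j)
    rw [← e] at this
    exact this
  · rintro _ ⟨τ, hτ, rfl⟩ k
    exact h.inz τ hτ (d3 k)
  · rintro _ ⟨τ, hτ, rfl⟩ k
    have e : d3 (k + 3) = d3 k + 3 := by revert k; decide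
    have := h.inv τ hτ (d3 k)
    rw [← e] at this
    exact this
  · rintro _ ⟨τ, hτ, rfl⟩ k
    have e : d3 (k + 2) = d3 k + 2 := by revert k; decide
    have e' : d3 (k + 1) = d3 k + 1 := by revert k; decide
    have := h.inr τ hτ (d3 k)
    rw [← e, ← e'] at this
    exact this
  · rintro _ ⟨τ, hτ, rfl⟩ k
    have e : d3 (k - 2) = d3 k - 2 := by revert k; decide
    have e' : d3 (k - 1) = d3 k - 1 := by revert k; decide
    have := h.inl τ hτ (d3 k)
    rw [← e, ← e'] at this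
    exact this
  · rintro _ ⟨τ, hτ, rfl⟩ p j c hc hN
    exact h.two τ hτ (p.map d3) (d3 j) c hc hN
  · rintro _ ⟨τ, hτ, rfl⟩ p j c
    exact h.gap τ hτ (p.map d3) (d3 j) c
  · rintro _ ⟨τ, hτ, rfl⟩ k j
    exact h.rz τ hτ (d3 k) (d3 j)
  · rintro _ ⟨τ, hτ, rfl⟩ k j
    have e' : d3 (k + 1) = d3 k + 1 := by revert k; decide
    have := h.rv τ hτ (d3 k) (d3 j)
    rw [← e'] at this
    exact this
  · rintro _ ⟨τ, hτ, rfl⟩ j
    have e : d3 (j + 1) = d3 j + 1 := by revert j; decide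
    have := h.alt τ hτ (d3 j)
    rw [← e] at this
    exact this
  · rintro _ ⟨τ, hτ, rfl⟩ _ ⟨τ', hτ', rfl⟩ p j j' h1 h2 h3
    exact h.biex τ hτ τ' hτ' (p.map d3) (d3 j) (d3 j') h1 h2 h3
  · intro p hp a ha
    obtain ⟨d, e, h1, h2, h3, h4, h5, h6⟩ := h.deg (p.map d3) hp a ha
    refine ⟨d, e, h1, h2, h3, h4, h5, ?_⟩
    rintro _ ⟨τ, hτ, rfl⟩ j
    exact h6 τ hτ (d3 j)
  · intro a ha k hk hk' t
    have e1 : d3 k + 1 ≠ 0 := by revert k; decide
    have e2 : d3 k + 1 ≠ 0 + 3 := by revert k; decide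
    obtain ⟨τ, hτ, h1, h2⟩ := h.m3r a ha (d3 k) e1 e2 (¬ t)
    refine ⟨_, ⟨τ, hτ, rfl⟩, ?_, ?_⟩
    · change m ∈ τ none (0 + 3) ↔ t
      rw [a3 τ hτ 0, h1]; tauto
    · have e : ∀ k : Fin 6, d3 (k + 2) = d3 k + 2 := by decide
      change a ∉ τ (some (d3 k)) (d3 (k + 2))
      rw [e k]; exact h2
  · intro a ha k hk hk' t
    have e1 : d3 k - 1 ≠ 0 := by revert k; decide
    have e2 : d3 k - 1 ≠ 0 + 3 := by revert k; decide
    obtain ⟨τ, hτ, h1, h2⟩ := h.m3l a ha (d3 k) e1 e2 (¬ t)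
    refine ⟨_, ⟨τ, hτ, rfl⟩, ?_, ?_⟩
    · change m ∈ τ none (0 + 3) ↔ t
      rw [a3 τ hτ 0, h1]; tauto
    · have e : ∀ k : Fin 6, d3 (k - 2) = d3 k - 2 := by decide
      change a ∉ τ (some (d3 k)) (d3 (k - 2))
      rw [e k]; exact h2

theorem pullF {m : Fin 6} (h : SysR m N Q 0) : SysR m (pN dn id N) (pQ dn id Q) 0 := by
  refine
    { nz := h.nz, nv := fun k => h.nv _, nv' := fun k => h.nv' _, ne := ?_, hex := ?_, inz := ?_
      inv := ?_, inr := ?_
      inl := ?_, two := ?_, gap := ?_, rz := ?_, rv := ?_, alt := ?_, biex := ?_, deg := ?_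
      m3r := ?_, m3l := ?_ }
  · rintro _ ⟨τ, hτ, rfl⟩ p j
    exact h.ne τ hτ _ _
  · rintro _ ⟨τ, hτ, rfl⟩ p j
    have e : dn (j + 1) + 1 = dn j := by revert j; decide
    have := h.hex τ hτ (p.map dn) (dn (j + 1))
    rw [e] at this
    exact this.symm
  · rintro _ ⟨τ, hτ, rfl⟩ k
    exact h.inz τ hτ (dn k)
  · rintro _ ⟨τ, hτ, rfl⟩ k
    have e : dn (k + 3) = dn k + 3 := by revert k; decide
    have := h.inv τ hτ (dn k)
    rw [← e] at this
    exact this
  · rintro _ ⟨τ, hτ, rfl⟩ k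
    have e : dn (k + 2) = dn k - 2 := by revert k; decide
    have e' : dn (k + 1) = dn k - 1 := by revert k; decide
    have := h.inl τ hτ (dn k)
    rw [← e, ← e'] at this
    exact this
  · rintro _ ⟨τ, hτ, rfl⟩ k
    have e : dn (k - 2) = dn k + 2 := by revert k; decide
    have e' : dn (k - 1) = dn k + 1 := by revert k; decide
    have := h.inr τ hτ (dn k)
    rw [← e, ← e'] at this
    exact this
  · rintro _ ⟨τ, hτ, rfl⟩ p j c hc hN
    exact h.two τ hτ (p.map dn) (dn j) c hc hN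
  · rintro _ ⟨τ, hτ, rfl⟩ p j c
    exact h.gap τ hτ (p.map dn) (dn j) c
  · rintro _ ⟨τ, hτ, rfl⟩ k j
    exact h.rz τ hτ (dn k) (dn j)
  · rintro _ ⟨τ, hτ, rfl⟩ k j
    have e' : dn (k + 1) + 1 = dn k := by revert k; decide
    have := h.rv τ hτ (dn (k + 1)) (dn j)
    rw [e'] at this
    exact this.symm
  · rintro _ ⟨τ, hτ, rfl⟩ j
    have e : dn (j + 1) + 1 = dn j := by revert j; decide
    have := h.alt τ hτ (dn (j + 1))
    rw [e] at this
    change m ∈ τ none (dn j) ↔ m ∉ τ none (dn (j + 1))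
    tauto
  · rintro _ ⟨τ, hτ, rfl⟩ _ ⟨τ', hτ', rfl⟩ p j j' h1 h2 h3
    exact h.biex τ hτ τ' hτ' (p.map dn) (dn j) (dn j') h1 h2 h3
  · intro p hp a ha
    obtain ⟨d, e, h1, h2, h3, h4, h5, h6⟩ := h.deg (p.map dn) hp a ha
    refine ⟨d, e, h1, h2, h3, h4, h5, ?_⟩
    rintro _ ⟨τ, hτ, rfl⟩ j
    exact h6 τ hτ (dn j)
  · intro a ha k hk hk' t
    have e1 : dn k - 1 ≠ 0 := by revert k; decide
    have e2 : dn k - 1 ≠ 0 + 3 := by revert k; decide
    obtain ⟨τ, hτ, h1, h2⟩ := h.m3l a ha (dn k) e1 e2 t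
    refine ⟨_, ⟨τ, hτ, rfl⟩, h1, ?_⟩
    have e : ∀ k : Fin 6, dn (k + 2) = dn k - 2 := by decide
    change a ∉ τ (some (dn k)) (dn (k + 2))
    rw [e k]; exact h2
  · intro a ha k hk hk' t
    have e1 : dn k + 1 ≠ 0 := by revert k; decide
    have e2 : dn k + 1 ≠ 0 + 3 := by revert k; decide
    obtain ⟨τ, hτ, h1, h2⟩ := h.m3r a ha (dn k) e1 e2 t
    refine ⟨_, ⟨τ, hτ, rfl⟩, h1, ?_⟩
    have e : ∀ k : Fin 6, dn (k - 2) = dn k + 2 := by decide
    change a ∉ τ (some (dn k)) (dn (k - 2))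
    rw [e k]; exact h2

end Vale.Agent.P032.H913.SR
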