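import Vale.Agent.P032.H913.SrC

/-!
# P032: certificates for the finite system with seven nodes, images of bad lists

`bad2` : a refutation from clauses of codes and from images of bad lists.
-/

set_option linter.unusedSectionVars false

noncomputable section

namespace Vale.Agent.P032.H913.SR

open Vale.Agent.P032.H89
open Vale.Agent.P032.H139.Lrat (Sat lit br br_true br_false Db build check check_sound)

variable {N : Option (Fin 6) → Set (Fin 6)} {Q : Set State} {σ : State}

/-! ### permutations of the colours -/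

/-- the permutation with digits in base eight -/
def pv (P c : ℕ) : ℕ := Nat.land (Nat.shiftRight P (3 * c)) 7

/-- image of a set of colours -/
def pm (P m : ℕ) : ℕ :=
  @List.rec ℕ (fun _ => ℕ) 0 (fun c _ ih => br (m.testBit c) (Nat.lor (Nat.shiftLeft 1 (pv P c)) ih) ih)
    r6

/-- admissible: a permutation which fixes 5 -/
def okP (P : ℕ) : Bool :=
  (r6.all fun c => Nat.blt (pv P c) 6) && (Nat.beq (pv P 5) 5 && decide (r6.map (pv P)).Nodup)

/-- the permutation -/
def pf (P : ℕ) (c : Fin 6) : Fin 6 := cc (pv P c.val)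

theorem pv_lt {P : ℕ} (h : okP P = true) (c : Fin 6) : pv P c.val < 6 := by
  unfold okP at h
  rw [Bool.and_eq_true] at h
  have := List.all_eq_true.1 h.1 c.val (val_lt c)
  exact blt_iff.1 this

theorem pf_val {P : ℕ} (h : okP P = true) (c : Fin 6) : (pf P c).val = pv P c.val :=
  Nat.mod_eq_of_lt (pv_lt h c)

theorem pf_inj {P : ℕ} (h : okP P = true) : Function.Injective (pf P) := by
  intro c d hcd
  have h1 := congrArg Fin.val hcd
  rw [pf_val h, pf_val h] at h1
  unfold okP at h
  rw [Bool.and_eq_true, Bool.and_eq_true] at h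
  have h2 := of_decide_eq_true h.2.2
  exact Fin.ext (List.inj_on_of_nodup_map h2 (val_lt c) (val_lt d) h1)

theorem pf_bij {P : ℕ} (h : okP P = true) : Function.Bijective (pf P) :=
  Finite.injective_iff_bijective.1 (pf_inj h)

theorem pf_five {P : ℕ} (h : okP P = true) (c : Fin 6) : pf P c = 5 ↔ c = 5 := by
  have h5 : pf P 5 = 5 := by
    apply Fin.ext
    rw [pf_val h]
    have h' := h
    unfold okP at h'
    rw [Bool.and_eq_true, Bool.and_eq_true] at h'
    exact Nat.eq_of_beq_eq_true h'.2.1
  constructor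
  · intro h1
    exact pf_inj h (h1.trans h5.symm)
  · rintro rfl; exact h5

theorem testBit_pm {P : ℕ} (h : okP P = true) (m : ℕ) (c : Fin 6) :
    (pm P m).testBit (pf P c).val = m.testBit c.val := by
  rw [pf_val h]
  have key : ∀ l : List ℕ, (∀ x ∈ l, x < 6) →
      (@List.rec ℕ (fun _ => ℕ) 0 (fun c _ ih => br (m.testBit c)
        (Nat.lor (Nat.shiftLeft 1 (pv P c)) ih) ih) l).testBit (pv P c.val) =
        (decide (c.val ∈ l) && m.testBit c.val) := by
    intro l
    induction l with
    | nil => intro _; simp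
    | cons x l ih =>
      intro hl
      have ih := ih fun y hy => hl y (List.mem_cons_of_mem _ hy)
      have hx := hl x List.mem_cons_self
      have hxc : pv P x = pv P c.val ↔ x = c.val := by
        constructor
        · intro h1
          have h2 : pf P (cc x) = pf P c := by
            apply Fin.ext
            rw [pf_val h, pf_val h]
            have : (cc x).val = x := Nat.mod_eq_of_lt hx
            rw [this, h1]
          have h3 := congrArg Fin.val (pf_inj h h2)
          have : (cc x).val = x := Nat.mod_eq_of_lt hx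
          rw [this] at h3
          exact h3
        · intro h1; rw [h1]
      change (br (m.testBit x) (Nat.lor (Nat.shiftLeft 1 (pv P x)) _) _).testBit (pv P c.val) = _
      cases hm : m.testBit x
      · rw [br_false, ih]
        by_cases h1 : c.val = x
        · subst h1; rw [hm]; simp
        · simp [h1]
      · rw [br_true]
        change ((1 <<< pv P x) ||| _).testBit _ = _
        rw [Nat.testBit_or, ih, Nat.testBit_shiftLeft]
        by_cases h1 : c.val = x
        · subst h1; rw [hm]; simp
        · have h2 : pv P x ≠ pv P c.val := fun e => h1 (hxc.1 e).symm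
          have h3 : (decide (pv P c.val ≥ pv P x) && (1 : ℕ).testBit (pv P c.val - pv P x)) = false := by
            by_cases h4 : pv P x ≤ pv P c.val
            · have h5 : pv P c.val - pv P x ≠ 0 := by omega
              have h6 : (1 : ℕ).testBit (pv P c.val - pv P x) = false := by
                have h7 : (1 : ℕ) = 2 ^ 0 := rfl
                rw [h7, Nat.testBit_two_pow]
                simp only [decide_eq_false_iff_not]
                omega
              rw [h6, Bool.and_false]
            · simp [h4]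
          rw [h3]
          simp [h1]
  have h1 := key r6 (by decide)
  have h2 : c.val ∈ r6 := val_lt c
  change (pm P m).testBit (pv P c.val) = _ at h1
  rw [h1]
  simp [h2]

/-! ### images of facts -/

/-- colours of a fact -/
def cF (P : ℕ) (x : Fact) : Fact :=
  (x.1, x.2.1, br (Nat.blt x.1 2) (pv P x.2.2) (pm P x.2.2))

/-- reflection of a node -/
def rn (p : ℕ) : ℕ := @Nat.rec (fun _ => ℕ) 0 (fun k _ => (6 - k % 6) % 6 + 1) p

/-- half turn of a node -/
def tn (p : ℕ) : ℕ := @Nat.rec (fun _ => ℕ) 0 (fun k _ => (k + 3) % 6 + 1) p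

/-- reflection of a fact -/
def rF (x : Fact) : Fact := (x.1, rn x.2.1, x.2.2)

/-- half turn of a fact -/
def tF (x : Fact) : Fact := (x.1, tn x.2.1, x.2.2)

theorem nd_rn (p : ℕ) : nd (rn p) = (nd p).map dn := by
  cases p with
  | zero => rfl
  | succ k =>
    change some (cc ((6 - k % 6) % 6)) = some (dn (cc k))
    congr 1
    have h1 : cc k = cc (k % 6) := Fin.ext (by change k % 6 = k % 6 % 6; omega)
    rw [h1]
    have h2 : k % 6 < 6 := Nat.mod_lt _ (by norm_num)
    generalize k % 6 = r at h2 ⊢
    interval_cases r <;> decide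

theorem nd_tn (p : ℕ) : nd (tn p) = (nd p).map d3 := by
  cases p with
  | zero => rfl
  | succ k =>
    change some (cc ((k + 3) % 6)) = some (d3 (cc k))
    rw [cc_add]; rfl

/-- colours below six, sets below 64 -/
def okF (x : Fact) : Bool := br (Nat.blt x.1 2) (Nat.blt x.2.2 6) true

theorem FH_cF {P : ℕ} (h : okP P = true) {x : Fact} (hx : okF x = true) :
    FH (pN id (pf P) N) (pQ id (pf P) Q) x ↔ FH N Q (cF P x) := by
  obtain ⟨k, p, c⟩ := x
  have oid : (nd p).map id = nd p := by cases nd p <;> rfl
  have hT : c < 6 → (cc c ∈ pN id (pf P) N (nd p) ↔ cc (pv P c) ∈ N (nd p)) := by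
    intro hc
    change pf P (cc c) ∈ N ((nd p).map id) ↔ _
    rw [oid]
    have : (cc c).val = c := Nat.mod_eq_of_lt hc
    unfold pf
    rw [this]
  have hE : EE (pN id (pf P) N) (pQ id (pf P) Q) (nd p) c ↔ EE N Q (nd p) (pm P c) := by
    have := EE_pull (N := N) (Q := Q) (δ := id) (p := nd p) Function.surjective_id
      (pf_bij h).surjective (m := pm P c) (m' := c) (fun d => (testBit_pm h c d).symm)
    rw [this, oid]
  match k, hx with
  | 0, hx =>
    have hc : c < 6 := blt_iff.1 hx
    exact hT hc
  | 1, hx =>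
    have hc : c < 6 := blt_iff.1 hx
    exact not_congr (hT hc)
  | k + 2, _ => exact not_congr hE

theorem FH_rF {x : Fact} : FH (pN dn id N) (pQ dn id Q) x ↔ FH N Q (rF x) := by
  obtain ⟨k, p, c⟩ := x
  have hs : Function.Surjective dn := fun y => ⟨dn y, by revert y; decide⟩
  have hT : cc c ∈ pN dn id N (nd p) ↔ cc c ∈ N (nd (rn p)) := by
    rw [nd_rn]; exact Iff.rfl
  have hE : EE (pN dn id N) (pQ dn id Q) (nd p) c ↔ EE N Q (nd (rn p)) c := by
    rw [nd_rn]
    exact EE_pull hs Function.surjective_id (fun _ => rfl)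
  match k with
  | 0 => exact hT
  | 1 => exact not_congr hT
  | k + 2 => exact not_congr hE

theorem FH_tF {x : Fact} : FH (pN d3 id N) (pQ d3 id Q) x ↔ FH N Q (tF x) := by
  obtain ⟨k, p, c⟩ := x
  have hs : Function.Surjective d3 := fun y => ⟨d3 y, by revert y; decide⟩
  have hT : cc c ∈ pN d3 id N (nd p) ↔ cc c ∈ N (nd (tn p)) := by
    rw [nd_tn]; exact Iff.rfl
  have hE : EE (pN d3 id N) (pQ d3 id Q) (nd p) c ↔ EE N Q (nd (tn p)) c := by
    rw [nd_tn]
    exact EE_pull hs Function.surjective_id (fun _ => rfl)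
  match k with
  | 0 => exact hT
  | 1 => exact not_congr hT
  | k + 2 => exact not_congr hE

/-! ### images of bad lists -/

/-- the image of a fact: colours, reflection if `f`, half turn if `r` -/
def gF (r f : Bool) (P : ℕ) (x : Fact) : Fact := br r (tF (br f (rF (cF P x)) (cF P x)))
  (br f (rF (cF P x)) (cF P x))

theorem bad_img {L : List Fact} (hL : Bad L) {r f : Bool} {P : ℕ} (h : okP P = true)
    (hx : L.all okF = true) (hS : SysR 5 N Q 0) : ∃ x ∈ L, ¬ FH N Q (gF r f P x) := by
  have hx := List.all_eq_true.1 hx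
  have step1 : ∀ (N : Option (Fin 6) → Set (Fin 6)) (Q : Set State), SysR 5 N Q 0 →
      ∃ x ∈ L, ¬ FH N Q (cF P x) := by
    intro N Q hS
    have h1 := hL _ _ (pullC (pf_bij h) (pf_five h) hS)
    push Not at h1
    obtain ⟨x, h2, h3⟩ := h1
    exact ⟨x, h2, fun h4 => h3 ((FH_cF h (hx x h2)).2 h4)⟩
  have step2 : ∀ (N : Option (Fin 6) → Set (Fin 6)) (Q : Set State), SysR 5 N Q 0 →
      ∃ x ∈ L, ¬ FH N Q (br f (rF (cF P x)) (cF P x)) := by
    intro N Q hS
    cases f
    · exact step1 N Q hS
    · obtain ⟨x, h2, h3⟩ := step1 _ _ (pullF hS)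
      exact ⟨x, h2, fun h4 => h3 (FH_rF.2 h4)⟩
  cases r
  · exact step2 N Q hS
  · obtain ⟨x, h2, h3⟩ := step2 _ _ (pullR hS)
    exact ⟨x, h2, fun h4 => h3 (FH_tF.2 h4)⟩

/-- the list number `i`, a contradictory list if there is none -/
def nth (tab : List (List Fact)) : ℕ → List Fact :=
  @List.rec (List Fact) (fun _ => ℕ → List Fact) (fun _ => [(0, 0, 0), (1, 0, 0)])
    (fun L _ ih i => br (Nat.beq i 0) L (ih (Nat.pred i))) tab

theorem bad_dflt : Bad [(0, 0, 0), (1, 0, 0)] := by
  intro N Q _ h
  have h1 := h (0, 0, 0) (by simp)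
  have h2 := h (1, 0, 0) (by simp)
  exact h2 h1

theorem nth_bad {tab : List (List Fact)} (h : ∀ L ∈ tab, Bad L) (i : ℕ) : Bad (nth tab i) := by
  induction tab generalizing i with
  | nil => exact bad_dflt
  | cons L tab ih =>
    change Bad (br (Nat.beq i 0) L (nth tab (Nat.pred i)))
    cases Nat.beq i 0
    · exact ih (fun M hM => h M (List.mem_cons_of_mem _ hM)) _
    · exact h L List.mem_cons_self

/-- the literals of an image code: list `i`, half turn, reflection, permutation -/
def icl (tab : List (List Fact)) (i : ℕ) (r f : Bool) (P : ℕ) : List Li :=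
  br (okP P && (nth tab i).all okF) ((nth tab i).map fun x => nli (fli (gF r f P x))) triv

/-- the literals of a code, images allowed -/
def clsM (tab : List (List Fact)) (n : ℕ) : List Li :=
  br (Nat.beq (n % 32) 31)
    (icl tab (n / 32 % 128) (Nat.beq (n / 4096 % 2) 1) (Nat.beq (n / 8192 % 2) 1) (n / 16384))
    (cls n)

theorem clsM_true {tab : List (List Fact)} (h : ∀ L ∈ tab, Bad L) (hS : SysR 5 N Q 0) (hσ : σ ∈ Q)
    (n : ℕ) : ∃ x ∈ clsM tab n, holds N Q σ x := by
  unfold clsM
  cases Nat.beq (n % 32) 31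
  · exact cls_true hS hσ n
  · change ∃ x ∈ icl _ _ _ _ _, _
    generalize n / 32 % 128 = i
    generalize Nat.beq (n / 4096 % 2) 1 = r
    generalize Nat.beq (n / 8192 % 2) 1 = f
    generalize n / 16384 = P
    unfold icl
    cases h1 : okP P && (nth tab i).all okF
    · exact triv_true
    · rw [Bool.and_eq_true] at h1
      obtain ⟨x, h2, h3⟩ := bad_img (r := r) (f := f) (nth_bad h i) h1.1 h1.2 hS
      exact ⟨_, List.mem_map.2 ⟨x, h2, rfl⟩, holds_nli h3⟩

/-- **a refutation from clauses of codes and images of bad lists** -/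
theorem bad2 {tab : List (List Fact)} (ht : ∀ L ∈ tab, Bad L) {P : List Fact} {B fuel : ℕ} {tr : Db}
    {cs hs : List ℕ}
    (h : check B fuel tr (cl (clsM tab) cs (ul (P.map fli) [])) hs = true) : Bad P := by
  intro N Q hS hP
  obtain ⟨τ, hτ, -⟩ := ex_state hS (k := 0) (s := 2) (a := 0) (t := 0) (by decide)
  refine check_sound h (asg N Q τ) (cl_sat (fun n => clsM_true ht hS hτ n) (ul_sat ?_ ?_))
  · intro x hx
    obtain ⟨y, hy, rfl⟩ := List.mem_map.1 hx
    exact holds_fli (hP y hy)
  · intro C hC; cases hC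

theorem bad_cons {L : List Fact} {tab : List (List Fact)} (h1 : Bad L) (h2 : ∀ M ∈ tab, Bad M) :
    ∀ M ∈ L :: tab, Bad M := by
  intro M hM
  rcases List.mem_cons.1 hM with rfl | hM
  · exact h1
  · exact h2 M hM

theorem bad_nil : ∀ M ∈ ([] : List (List Fact)), Bad M := fun M hM => by cases hM

theorem bad_app {t1 t2 : List (List Fact)} (h1 : ∀ M ∈ t1, Bad M) (h2 : ∀ M ∈ t2, Bad M) :
    ∀ M ∈ t1 ++ t2, Bad M := by
  intro M hM
  rcases List.mem_append.1 hM with hM | hM
  · exact h1 M hM
  · exact h2 M hM

/-- **if the empty list is bad there is no system** -/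
theorem no_sysR (h : Bad []) (m : Fin 6) (hS : SysR m N Q 0) : False := by
  have hb : Function.Bijective (Equiv.swap 5 m) := (Equiv.swap 5 m).bijective
  have hm : ∀ c, Equiv.swap (5 : Fin 6) m c = m ↔ c = 5 := by
    intro c
    constructor
    · intro h1
      have h2 : Equiv.swap (5 : Fin 6) m 5 = m := Equiv.swap_apply_left 5 m
      exact (Equiv.swap (5 : Fin 6) m).injective (h1.trans h2.symm)
    · rintro rfl; exact Equiv.swap_apply_left 5 m
  exact h _ _ (pullC hb hm hS) fun x hx => by cases hx

end Vale.Agent.P032.H913.SR
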