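import Vale.Agent.P032.H913.SrMF

/-!
# P032: there is no finite system with seven nodes

`no_sysR0` : there is no system `SysR m N Q 0`.
-/

namespace Vale.Agent.P032.H913

open Vale.Agent.P032.H89

/-- **There is no restricted system.** -/
theorem no_sysR0 : ∀ (m : Fin 6) (N : Option (Fin 6) → Set (Fin 6)) (Q : Set State),
    SysR m N Q 0 → False := fun m _ _ h => SR.no_sysR SR.MF.bad m h

/-- **There is no system.** -/
theorem no_sys {m : Fin 6} {N : Option (Fin 6) → Set (Fin 6)} {Q : Set State}
    (h : Sys m N Q) : False := no_sysR0 m _ _ (h.restrict 0)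

end Vale.Agent.P032.H913
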