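import Vale.Agent.P032.H913.SrD
import Vale.Agent.P032.H913.SrL3
import Vale.Agent.P032.H913.SrL5

/-!
# P032: certificates for the finite system with seven nodes, lemma C1 (generated)
-/

set_option maxRecDepth 100000

noncomputable section

namespace Vale.Agent.P032.H913.SR

open Vale.Agent.P032.H139.Lrat (Db build)

namespace MC1

def P : List Fact := [(1, 2, 0), (1, 2, 4), (1, 2, 3), (0, 2, 1), (0, 2, 2), (0, 2, 5)]

def tab : List (List Fact) := [L47.P, L54.P, L50.P]

theorem tab_bad : ∀ L ∈ tab, Bad L :=
  bad_cons L47.bad (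
  bad_cons L54.bad (
  bad_cons L50.bad (
  bad_nil)))

def cs : List ℕ := [667651, 51205, 2978234399, 2831560767, 2980184159, 2979266655]

def ds : List ℕ := [97, 161, 136, 40, 41, 0]

def hs : List ℕ := [105734, 12, 45, 138502, 2511, 5480656]

def tr : Db := build 5 (cl (clsM tab) cs (ul (P.map fli) (dml 2 ds))) 0
  (fun t _ => t)

theorem bad : Bad P := bad2 tab_bad (B := 5) (fuel := 5) (tr := tr) (cs := cs) (hs := hs)
  (by decide +kernel)

end MC1

end Vale.Agent.P032.H913.SR
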