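import Vale.Agent.P032.H913.SrD
import Vale.Agent.P032.H913.SrL0
import Vale.Agent.P032.H913.SrL4
import Vale.Agent.P032.H913.SrMA1
import Vale.Agent.P032.H913.SrMB1
import Vale.Agent.P032.H913.SrMC1

/-!
# P032: certificates for the finite system with seven nodes, lemma D0 (generated)
-/

set_option maxRecDepth 100000

noncomputable section

namespace Vale.Agent.P032.H913.SR

open Vale.Agent.P032.H139.Lrat (Db build)

namespace MD0

def P : List Fact := [(1, 1, 0), (1, 1, 4), (1, 1, 3), (1, 1, 2), (0, 1, 1), (0, 1, 5)]

def tab : List (List Fact) := [MA1.P, MB1.P, MC1.P, L72.P, L26.P]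

theorem tab_bad : ∀ L ∈ tab, Bad L :=
  bad_cons MA1.bad (
  bad_cons MB1.bad (
  bad_cons MC1.bad (
  bad_cons L72.bad (
  bad_cons L26.bad (
  bad_nil)))))

def cs : List ℕ := [0, 32, 64, 96, 160, 65, 66, 10245, 669699, 18437, 677891, 24581, 684035, 34821, 694275, 40965,
  700419, 49157, 708611, 2055, 395271, 526343, 657414, 70346868744, 2980196383, 2980081695,
  2979049503, 2970677279, 2903584799, 2980196415, 2921476159, 2855415871, 2788438079, 2980081727,
  2921361471, 2855301183, 2979049535, 2920329279, 2970677311, 2980196447, 2972856415, 2906796127,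
  2979049567, 2980184191, 2921463935, 2972844159, 2978234495, 2919514239, 2852536447, 2980184223,
  2921463967, 2855403679, 2788425887, 2980069535, 2921349279, 2979037343, 2920317087, 2970665119]

def ds : List ℕ := [1008, 16865211365, 12950873290473509, 12950873290469414, 12950873273696294, 12950804570996774,
  12669398313762854, 12669398313762853, 12950804570996773, 12950873273696293, 12950873290469413,
  12669398313758758, 12950804570992678, 12950873273692198, 12669398296985638, 12950804554219558,
  12669329594286118, 12669329594286117, 12669398296985637, 12950804554219557, 12669329577508902,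
  107, 171, 126, 123, 187, 110, 99, 163, 134, 113, 177, 120, 129, 193, 104, 137, 201, 96,
  721588263, 755142695, 755150887, 721580069, 755134501, 688025637, 3161834299432, 3161834299431,
  771932202, 771932199, 3161834295336, 188460, 3161817518120, 188457, 3161817522216, 771928106, 46,
  721592360, 176168, 43, 167976, 41, 40, 37, 0]

def hs : List ℕ := [2820, 807460175873, 3078, 3206, 3334, 3462, 3590, 3718, 3846, 3974, 4102, 4230, 4358, 4486, 4614,
  4742, 4870, 4998, 5126, 5254, 5382, 712125, 1365, 2006, 728637, 1880, 1497, 744892, 1115, 2268,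
  761274, 1630, 1759, 777786, 2145, 1250, 794298, 2404, 997, 6368, 6499, 6630, 7127, 7258, 7389,
  1081990, 9539, 14189, 1275503, 9412, 1865839, 10703, 1897458, 9285, 1258869, 1948274, 1321207,
  600972395546195868791, 1996023, 173259770, 2028663, 19207732855, 1768445, 2609186258686]

def tr : Db := build 7 (cl (clsM tab) cs (ul (P.map fli) (dml 6 ds))) 0
  (fun t _ => t)

theorem bad : Bad P := bad2 tab_bad (B := 7) (fuel := 10) (tr := tr) (cs := cs) (hs := hs)
  (by decide +kernel)

end MD0

end Vale.Agent.P032.H913.SR
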