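import Vale.Agent.P032.H913.SrD
import Vale.Agent.P032.H913.SrL0
import Vale.Agent.P032.H913.SrMA1
import Vale.Agent.P032.H913.SrMB1

/-!
# P032: certificates for the finite system with seven nodes, lemma E0 (generated)
-/

set_option maxRecDepth 100000

noncomputable section

namespace Vale.Agent.P032.H913.SR

open Vale.Agent.P032.H139.Lrat (Db build)

namespace ME0

def P : List Fact := [(1, 1, 0), (1, 1, 4), (1, 1, 3), (1, 1, 2), (1, 1, 1), (0, 1, 5)]

def tab : List (List Fact) := [MA1.P, MB1.P, L102.P, L62.P]

theorem tab_bad : ∀ L ∈ tab, Bad L :=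
  bad_cons MA1.bad (
  bad_cons MB1.bad (
  bad_cons L102.bad (
  bad_cons L62.bad (
  bad_nil))))

def cs : List ℕ := [65, 66, 6149, 10245, 12293, 669699, 18437, 20485, 677891, 24581, 681987, 684035, 34821, 36869,
  694275, 40965, 698371, 700419, 49157, 706563, 708611, 712707, 2980196383, 2980081695, 2979049503,
  2970677279, 2903584799, 2980196415, 2921476159, 2855415871, 2788438079, 2980081727, 2921361471,
  2855301183, 2979049535, 2920329279, 2970677311, 2980184159, 2921463903, 2855403615, 2979266655,
  2920546399, 2971009119, 2980069471, 2921349215, 2855288927, 2788196447, 2980196479, 2972856447,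
  2906796159, 2964598911, 2898538623, 2831560831, 2956226687, 2890166399, 2823188607, 2756096127]

def ds : List ℕ := [12950873290473509, 12950873290469414, 12950873273696294, 12950804570996774, 12669398313762854,
  12669398313762853, 12950804570996773, 12950873273696293, 12950873290469413, 12669398313758758,
  12950804570992678, 12950873273692198, 12669398296985638, 12950804554219558, 12669329594286118,
  111, 175, 122, 127, 191, 106, 135, 199, 98, 107, 171, 126, 123, 187, 110, 99, 163, 134, 113, 177,
  120, 129, 193, 104, 137, 201, 96, 141, 205, 92, 688025637, 721580069, 755134501, 721588261,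
  755142693, 755150885, 721588263, 755142695, 755150887, 755150889, 3161834299432, 3161834299431,
  771932202, 771932199, 3161834295336, 188460, 188457, 3161817522216, 771928106, 46, 43, 172072,
  42, 37, 39, 0]

def hs : List ℕ := [5633, 5889, 6145, 6401, 6657, 6913, 7169, 7425, 7681, 7937, 8193, 8449, 8705, 8961, 9217,
  2439741, 2638, 3407, 2505533, 4177, 1874, 2571325, 4948, 1109, 2636348, 2135, 3928, 2702140,
  3674, 2395, 2767419, 1373, 4702, 2832953, 2912, 3169, 2898745, 4451, 1636, 2964537, 5222, 871,
  3030329, 5481, 618, 12127, 12377, 12636, 12880, 13139, 13398, 13666, 13925, 14184, 14443,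
  4128769, 18240, 30582, 4877432, 17985, 8026488, 1282568059, 17730, 4812157, 8289403,
  332683047295, 1145274240, 311091626111, 7372674, 7569282, 83011022390148]

def tr : Db := build 8 (cl (clsM tab) cs (ul (P.map fli) (dml 6 ds))) 0
  (fun t _ => t)

theorem bad : Bad P := bad2 tab_bad (B := 8) (fuel := 6) (tr := tr) (cs := cs) (hs := hs)
  (by decide +kernel)

end ME0

end Vale.Agent.P032.H913.SR
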