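import Vale.Agent.P032.H913.SrD
import Vale.Agent.P032.H913.SrMA0
import Vale.Agent.P032.H913.SrMB0
import Vale.Agent.P032.H913.SrMC0
import Vale.Agent.P032.H913.SrMD0
import Vale.Agent.P032.H913.SrME0

/-!
# P032: certificates for the finite system with seven nodes, lemma F (generated)
-/

set_option maxRecDepth 100000

noncomputable section

namespace Vale.Agent.P032.H913.SR

open Vale.Agent.P032.H139.Lrat (Db build)

namespace MF

def P : List Fact := []

def tab : List (List Fact) := [MA0.P, MB0.P, MC0.P, MD0.P, ME0.P]

theorem tab_bad : ∀ L ∈ tab, Bad L :=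
  bad_cons MA0.bad (
  bad_cons MB0.bad (
  bad_cons MC0.bad (
  bad_cons MD0.bad (
  bad_cons ME0.bad (
  bad_nil)))))

def cs : List ℕ := [1, 2, 2980184095, 2980069407, 2979037215, 2970664991, 2903572511, 2980184127, 2921463871,
  2855403583, 2788425791, 2980069439, 2921349183, 2855288895, 2979037247, 2920316991, 2970665023,
  2980184159, 2972844127, 2906783839, 2964586591, 2898526303, 2831548511, 2980069471, 2972729439,
  2906669151, 2979037279, 2980184191, 2979266687, 2971009151, 2904031359, 2980069503, 2980184223]

def ds : List ℕ := [6193824179224589, 6193824179220494, 6193824162447374, 6193755459747854, 5912349202513934,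
  5912349202513933, 6193755459747853, 6193824162447373, 6193824179220493, 5912349202509838,
  6193755459743758, 6193824162443278, 5912349185736718, 6193755442970638, 5912280483037198,
  5912280483037197, 5912349185736717, 6193755442970637, 5912349202509837, 6193755459743757,
  6193824162443277, 5912280483033102, 5912349185732622, 6193755442966542, 5912280466259982,
  5912280466259981, 5912280483033101, 5912349185732621, 6193755442966541, 5912280466255886,
  5912280466255885, 1512164106256, 1512164106255, 369180690, 1512164102160, 1512164102159,
  369180689, 90132, 1512147329040, 1512147329039, 369176594, 1512147324944, 1512147324943,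
  369176593, 90131, 22, 335618064, 335618063, 81938, 335613968, 335613967, 81937, 20, 73744, 73743,
  18, 16, 13, 0]

def hs : List ℕ := [257, 385, 513, 641, 769, 897, 1025, 1153, 1281, 1409, 1537, 1665, 1793, 1921, 2049, 2177, 2305,
  2433, 2561, 2689, 2817, 2945, 3073, 3201, 3329, 3457, 3585, 3713, 3841, 3969, 4097, 540673, 5282,
  8384, 5155, 6828, 8771, 8898, 5028, 6699, 9287, 6446, 7229, 9674, 9801, 9926, 627406, 841038,
  10319, 808654, 990158, 10706, 10833, 101443413, 114222933, 11222, 15690246862, 17099482968,
  2151421455705]

def tr : Db := build 7 (cl (clsM tab) cs (ul (P.map fli) (dml 6 ds))) 0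
  (fun t _ => t)

theorem bad : Bad P := bad2 tab_bad (B := 7) (fuel := 6) (tr := tr) (cs := cs) (hs := hs)
  (by decide +kernel)

end MF

end Vale.Agent.P032.H913.SR
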